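import Crest.Agent.N325.Tw.Bot
import Crest.Agent.N325.M0.Tac
import Crest.Agent.N325.Lst.ListImpl

/-! Row 325 (helper16): the representation of edges; the bottom search is implementable. -/

set_option autoImplicit false

namespace Crest.Agent.N325.Tw

instance : Rp Ed := Rp.via fun d => (d.a, d.b, d.l, d.g)

variable {α : Type} [Rp α]

@[fun_prop] theorem Ed.pu_a {σ : Bool} {d : α → Ed} (h : Pu σ d) : Pu σ fun x => (d x).a := by impl
@[fun_prop] theorem Ed.pu_b {σ : Bool} {d : α → Ed} (h : Pu σ d) : Pu σ fun x => (d x).b := by impl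
@[fun_prop] theorem Ed.pu_l {σ : Bool} {d : α → Ed} (h : Pu σ d) : Pu σ fun x => (d x).l := by impl
@[fun_prop] theorem Ed.pu_g {σ : Bool} {d : α → Ed} (h : Pu σ d) : Pu σ fun x => (d x).g := by impl

namespace Bot

@[fun_prop] theorem impl_relax {D D' : α → Tab} {u v : α → ℕ} {x : α → ℕ × Bool} {c : α → ℤ}
    (h1 : Pu true D) (h2 : Pu true u) (h3 : Pu true v) (h4 : Pu true x) (h5 : Pu true c)
    (h6 : Pu true D') : Impl fun a => relax (D a) (u a) (v a) (x a) (c a) (D' a) := by
  impl

@[fun_prop] theorem impl_relax2 {ψ : α → ℕ} {D D' : α → Tab} {p : α → ℕ × Ed}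
    (h1 : Pu true ψ) (h2 : Pu true D) (h3 : Pu true p) (h4 : Pu true D') :
    Impl fun a => relax2 (ψ a) (D a) (p a) (D' a) := by
  impl

@[fun_prop] theorem impl_round {ψ : α → ℕ} {D : α → Tab} {l : α → List (ℕ × Ed)}
    (h1 : Pu true ψ) (h2 : Pu true l) (h3 : Pu true D) :
    Impl fun a => round (ψ a) (l a) (D a) := by
  impl

@[fun_prop] theorem impl_seek {D D' : α → Tab} {l : α → List (ℕ × Ed)}
    (h1 : Pu true l) (h2 : Pu true D) (h3 : Pu true D') :
    Impl fun a => seek (l a) (D a) (D' a) := by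
  impl

@[fun_prop] theorem impl_upTo {y : α → ℕ} {r : α → List En} {w : α → Wk}
    (h1 : Pu true y) (h2 : Pu true r) (h3 : Pu true w) :
    Impl fun a => upTo (y a) (r a) (w a) := by
  impl

@[fun_prop] theorem impl_rep {w : α → List En} (h1 : Pu true w) : Impl fun a => rep (w a) := by
  impl

@[fun_prop] theorem impl_bot {ψ : α → ℕ} {l : α → List (ℕ × Ed)} (hψ : Pu true ψ)
    (hl : Pu true l) : Impl fun a => bot (ψ a) (l a) := by
  impl

end Bot

end Crest.Agent.N325.Tw
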