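import Crest.Agent.N325.Tw.Prog
import Crest.Agent.N325.Tw.BotImpl

/-! # Row 325 (helper14): the programs of the tower are implementable -/

set_option autoImplicit false

namespace Crest.Agent.N325.Tw

instance instRpLv {S P : Type} [Rp S] [Rp P] : Rp (Lv S P) :=
  Rp.via fun v => (v.p, v.lim, v.st, v.ed, v.al, v.ids, v.own, v.wk, v.cnt)

variable {α S P T : Type} [Rp α] [Rp S] [Rp P] [Rp T]

@[fun_prop] theorem Lv.pu_p {σ : Bool} {v : α → Lv S P} (h : Pu σ v) :
    Pu σ fun a => (v a).p := by impl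
@[fun_prop] theorem Lv.pu_lim {σ : Bool} {v : α → Lv S P} (h : Pu σ v) :
    Pu σ fun a => (v a).lim := by impl
@[fun_prop] theorem Lv.pu_st {σ : Bool} {v : α → Lv S P} (h : Pu σ v) :
    Pu σ fun a => (v a).st := by impl
@[fun_prop] theorem Lv.pu_ed {σ : Bool} {v : α → Lv S P} (h : Pu σ v) :
    Pu σ fun a => (v a).ed := by impl
@[fun_prop] theorem Lv.pu_al {σ : Bool} {v : α → Lv S P} (h : Pu σ v) :
    Pu σ fun a => (v a).al := by impl
@[fun_prop] theorem Lv.pu_ids {σ : Bool} {v : α → Lv S P} (h : Pu σ v) :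
    Pu σ fun a => (v a).ids := by impl
@[fun_prop] theorem Lv.pu_own {σ : Bool} {v : α → Lv S P} (h : Pu σ v) :
    Pu σ fun a => (v a).own := by impl
@[fun_prop] theorem Lv.pu_wk {σ : Bool} {v : α → Lv S P} (h : Pu σ v) :
    Pu σ fun a => (v a).wk := by impl
@[fun_prop] theorem Lv.pu_cnt {σ : Bool} {v : α → Lv S P} (h : Pu σ v) :
    Pu σ fun a => (v a).cnt := by impl

@[fun_prop] theorem impl_push1 {θ : α → ℕ} {ed : α → Arr Ed} {δ : α → ℤ} {x : α → ℕ × Bool}
    {s : α → So} (h1 : Pu true θ) (h2 : Pu true ed) (h3 : Pu true δ) (h4 : Pu true x)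
    (h5 : Pu true s) : Impl fun a => push1 (θ a) (ed a) (δ a) (x a) (s a) := by
  unfold push1; impl

@[fun_prop] theorem impl_pushR {θ : α → ℕ} {ed : α → Arr Ed} {wk : α → Arr Wk} {r : α → Rep}
    {s : α → So} (h1 : Pu true θ) (h2 : Pu true ed) (h3 : Pu true wk) (h4 : Pu true r)
    (h5 : Pu true s) : Impl fun a => pushR (θ a) (ed a) (wk a) (r a) (s a) := by
  unfold pushR; impl

@[fun_prop] theorem impl_lenG {ed : α → Arr Ed} {w : α → Wk} (h1 : Pu true ed) (h2 : Pu true w) :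
    Impl fun a => lenG (ed a) (w a) := by
  unfold lenG; impl

@[fun_prop] theorem impl_cyc {θ κ : α → ℕ} {ed : α → Arr Ed} {w : α → Wk} {s : α → So}
    (h1 : Pu true θ) (h1' : Pu true κ) (h2 : Pu true ed) (h4 : Pu true w) (h5 : Pu true s) :
    Impl fun a => cyc (θ a) (κ a) (ed a) (w a) (s a) := by
  unfold cyc; impl

@[fun_prop] theorem pu_setWk {o : α → Ow} {wk : α → Arr Wk} (h1 : Pu true o) (h2 : Pu true wk) :
    Pu true fun a => setWk (o a) (wk a) := by
  unfold setWk; impl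

@[fun_prop] theorem pu_fin1 {o : α → Op} {s : α → So} (h1 : Pu true o) (h2 : Pu true s) :
    Pu true fun a => fin1 (o a) (s a) := by
  unfold fin1; impl

@[fun_prop] theorem pu_op {o : α → Ow} (h1 : Pu true o) : Pu true fun a => (o a).op := by
  unfold Ow.op; impl

@[fun_prop] theorem pu_tab {o : α → Op} {v : α → Lv S P} (h1 : Pu true o) (h2 : Pu true v) :
    Pu true fun a => tab (o a) (v a) := by
  unfold tab; impl

@[fun_prop] theorem pu_clear {v : α → Lv S P} (h2 : Pu true v) : Pu true fun a => clear (v a) := by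
  unfold clear; impl

@[fun_prop] theorem impl_enum {v : α → Lv S P} (h2 : Pu true v) : Impl fun a => enum (v a) := by
  unfold enum; impl

@[fun_prop] theorem impl_repAll {v : α → Lv S P} {s : α → So} (h2 : Pu true v) (h3 : Pu true s) :
    Impl fun a => repAll (v a) (s a) := by
  unfold repAll; impl

/-- the lower levels are used through `call` only -/
def Low (low : α → Cmd × T → R (T × Rep × Bool)) : Prop :=
  Impl fun p : α × Cmd × T => call (low p.1) p.2

/-- the programs of the stage are implementable -/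
structure StageImpl (σ : Stage S P) : Prop where
  build : Impl fun p : P × List (ℕ × Ed) => σ.build p.1 p.2
  upd : Impl fun p : S × Op => σ.upd p.1 p.2
  probe : Impl σ.probe

section
variable {low : α → Cmd × T → R (T × Rep × Bool)} {σ : Stage S P} {θ κ : α → ℕ}

theorem impl_down (hl : Low low) (h1 : Pu true θ) :
    Impl fun p : α × Arr Ed × Arr Wk × Cmd × T × So =>
      down (low p.1) (θ p.1) p.2.1 p.2.2.1 p.2.2.2.1 p.2.2.2.2.1 p.2.2.2.2.2 := by
  obtain ⟨k, e⟩ : ∃ k : α → Cmd × T → R (T × Rep × Bool), ∀ a y, call (low a) y = k a y :=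
    ⟨_, fun _ _ => rfl⟩
  have hk : Impl fun p : α × Cmd × T => k p.1 p.2 := Impl.of_eq hl fun p => e _ _
  unfold down
  simp only [e]
  impl

theorem impl_opR (hl : Low low) (h1 : Pu true θ) :
    Impl fun p : α × Arr Ed × Ow × So × Arr Wk × T =>
      opR (low p.1) (θ p.1) p.2.1 p.2.2.1 p.2.2.2 := by
  have hd := impl_down hl h1
  obtain ⟨dn, e⟩ : ∃ dn : α → Arr Ed → Arr Wk → Cmd → T → So → R (So × T × Bool),
    ∀ a, down (low a) (θ a) = dn a := ⟨_, fun _ => rfl⟩
  unfold opR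
  simp only [e] at hd ⊢
  impl

theorem impl_fresh (hl : Low low) (hσ : StageImpl σ) (h1 : Pu true θ) :
    Impl fun p : α × Lv S P × T × So => fresh (low p.1) (θ p.1) σ p.2.1 p.2.2.1 p.2.2.2 := by
  have ho := impl_opR hl h1
  obtain ⟨k, e⟩ : ∃ k : α → Cmd × T → R (T × Rep × Bool), ∀ a y, call (low a) y = k a y :=
    ⟨_, fun _ _ => rfl⟩
  have hk : Impl fun p : α × Cmd × T => k p.1 p.2 := Impl.of_eq hl fun p => e _ _
  obtain ⟨op, e'⟩ : ∃ op : α → Arr Ed → Ow → So × Arr Wk × T → R (So × Arr Wk × T),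
    ∀ a, opR (low a) (θ a) = op a := ⟨_, fun _ => rfl⟩
  obtain ⟨b, u, q⟩ := σ
  have hb := hσ.build
  unfold fresh
  simp only [e, e'] at ho hb ⊢
  impl

theorem impl_older (hl : Low low) (hσ : StageImpl σ) (h1 : Pu true θ) :
    Impl fun p : α × Lv S P × T × So => older (low p.1) (θ p.1) σ p.2.1 p.2.2.1 p.2.2.2 := by
  have hd := impl_down hl h1
  have hf := impl_fresh hl hσ h1
  obtain ⟨dn, e⟩ : ∃ dn : α → Arr Ed → Arr Wk → Cmd → T → So → R (So × T × Bool),
    ∀ a, down (low a) (θ a) = dn a := ⟨_, fun _ => rfl⟩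
  obtain ⟨fr, e'⟩ : ∃ fr : α → Lv S P → T → So → R ((Lv S P × T) × Rep),
    ∀ a, fresh (low a) (θ a) σ = fr a := ⟨_, fun _ => rfl⟩
  unfold older
  simp only [e, e'] at hd hf ⊢
  impl

theorem impl_lvl' (hl : Low low) (hσ : StageImpl σ) (h1 : Pu true θ) (h2 : Pu true κ) :
    Impl fun p : α × Cmd × (Lv S P × T) => lvl (low p.1) (θ p.1) (κ p.1) σ p.2 := by
  have hd := impl_down hl h1
  have hf := impl_fresh hl hσ h1
  have ho := impl_opR hl h1
  have hr := impl_older hl hσ h1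
  obtain ⟨dn, e1⟩ : ∃ dn : α → Arr Ed → Arr Wk → Cmd → T → So → R (So × T × Bool),
    ∀ a, down (low a) (θ a) = dn a := ⟨_, fun _ => rfl⟩
  obtain ⟨fr, e2⟩ : ∃ fr : α → Lv S P → T → So → R ((Lv S P × T) × Rep),
    ∀ a, fresh (low a) (θ a) σ = fr a := ⟨_, fun _ => rfl⟩
  obtain ⟨op, e3⟩ : ∃ op : α → Arr Ed → Ow → So × Arr Wk × T → R (So × Arr Wk × T),
    ∀ a, opR (low a) (θ a) = op a := ⟨_, fun _ => rfl⟩
  obtain ⟨ol, e4⟩ : ∃ ol : α → Lv S P → T → So → R ((Lv S P × T) × Rep),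
    ∀ a, older (low a) (θ a) σ = ol a := ⟨_, fun _ => rfl⟩
  have hu := hσ.upd
  have hq := hσ.probe
  unfold lvl updL stepL dumpL resetL again
  simp only [e1, e2, e3, e4] at hd hf ho hr ⊢
  obtain ⟨b, u, q⟩ := σ
  dsimp only at hu hq ⊢
  impl

end

theorem impl_base' {bot : α → List (ℕ × Ed) → R (Option Wk)}
    (hb : Impl fun p : α × List (ℕ × Ed) => bot p.1 p.2) {θ κ : α → ℕ}
    (h1 : Pu true θ) (h2 : Pu true κ) :
    Impl fun p : α × Cmd × Lv S P => base (θ p.1) (κ p.1) (bot p.1) p.2 := by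
  unfold base; impl

/-- **the tower is implementable** -/
theorem impl_tower {σ : Stage S P} (hσ : StageImpl σ) {bot : α → List (ℕ × Ed) → R (Option Wk)}
    (hb : Impl fun p : α × List (ℕ × Ed) => bot p.1 p.2) {θ κ : α → ℕ} (h1 : Pu true θ)
    (h2 : Pu true κ) :
    Impl fun p : α × ℕ × Cmd × List (Lv S P) => tower (θ p.1) (κ p.1) σ (bot p.1) p.2.1 p.2.2 := by
  have hb' := impl_base' (S := S) (P := P) hb h1 h2
  have hl := impl_lvl' (α := α × (ℕ × Cmd × List (Lv S P) → R (List (Lv S P) × Rep × Bool)) × ℕ)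
    (low := fun p y => p.2.1 (p.2.2, y)) (θ := fun p => θ p.1) (κ := fun p => κ p.1)
    (Impl.call (g := fun p : (α × (ℕ × Cmd × List (Lv S P) → R (List (Lv S P) × Rep × Bool)) × ℕ) ×
      Cmd × List (Lv S P) => p.1.2.1) (x := fun p => (p.1.2.2, p.2)) (by fun_prop) (by fun_prop))
    hσ (by fun_prop) (by fun_prop)
  obtain ⟨bs, e1⟩ : ∃ bs : α → Cmd × Lv S P → R (Lv S P × Rep × Bool),
    ∀ a, base (θ a) (κ a) (bot a) = bs a := ⟨_, fun _ => rfl⟩
  obtain ⟨lv, e2⟩ : ∃ lv : (α × (ℕ × Cmd × List (Lv S P) → R (List (Lv S P) × Rep × Bool)) × ℕ) →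
      Cmd × (Lv S P × List (Lv S P)) → R ((Lv S P × List (Lv S P)) × Rep × Bool),
    ∀ p, lvl (fun y => p.2.1 (p.2.2, y)) (θ p.1) (κ p.1) σ = lv p := ⟨_, fun _ => rfl⟩
  refine Impl.fix (g := fun a (c : ℕ × Cmd × List (Lv S P)) => tower (θ a) (κ a) σ (bot a) c.1 c.2)
    (fun a rec c => Nat.casesOn c.1
      (List.casesOn c.2.2 (pure ([], [], false)) fun v l => do
        let r ← bs a (c.2.1, v)
        pure (r.1 :: l, r.2))
      fun n => List.casesOn c.2.2 (pure ([], [], false)) fun v l => do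
        let r ← lv (a, rec, n) (c.2.1, v, l)
        pure (r.1.1 :: r.1.2, r.2)) (fun a c => ?_) ?_
  · simp only [← e1, ← e2]
    obtain ⟨_ | n, c⟩ := c <;> rfl
  · simp only [e1, e2] at hb' hl
    impl

end Crest.Agent.N325.Tw
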