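import Crest.Agent.N325.Tw.Fit

/-! # Row 325 (helper73): the bottom level of the tower meets the specification -/

set_option autoImplicit false
open Finset

namespace Crest.Agent.N325.Tw

variable {S P : Type} {g : Gl} {θ κ K T : ℕ} {k : TC} {bot : List (ℕ × Ed) → R (Option Wk)}

theorem Tab.own {v : Lv S P} {G : Gr} (h : Tab v G) (a : Arr ℤ) : Tab { v with own := a } G :=
  ⟨h.ed, h.nd, h.ids, h.al2, h.al0⟩

theorem Tab.om_eq {v : Lv S P} {G : Gr} (h : Tab v G) : v.om = om G.U G.ed v.own.get := by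
  rw [Lv.om, h.ids, h.ed]

theorem PS.zero {rp : ℕ} {G : Gr} {s : So} (h : PS θ rp G s) : PS θ 0 G (s.1, []) :=
  ⟨h.small, h.off, fun _ hx => nomatch hx⟩

theorem PS.any {rp : ℕ} {G : Gr} {own : Arr ℤ} (h : PS θ 0 G (own, [])) : PS θ rp G (own, []) :=
  ⟨h.small, h.off, fun _ hx => nomatch hx⟩

/-- **the bottom level is a tower** -/
theorem base_spec (hb : BotSpec g bot k.c k.ψ K T) (hF : FitB g.X θ κ K T k) :
    TowerSpec g θ κ (base (S := S) (P := P) θ κ bot) k (fun _ => True) (BI θ)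
      fun v => (k.wt + k.cc) * v.om := by
  have hθ : θ ≤ k.rp := (Nat.le_add_right _ _).trans hF.rpκ
  refine ⟨fun _ => trivial, ?_, ?_, ?_, ?_, ?_⟩
  · rintro s G f ⟨-, h2, h3⟩ e he
    rw [h3 e he]
    exact (h2.small e).le.trans hF.er
  · rintro s G f o ⟨h1, h2, h3⟩ ho hG -
    have hl : ∀ e ∈ G.E, 1 ≤ (G.ed e).l := fun e he => (hG.2.2 e he).2.2.2.1
    obtain ⟨a1, a2⟩ := PS.both (rp := k.rp) ho h2
    obtain ⟨b1, b2, b3, b4⟩ := fin1_spec (wt := k.wt) (cc := k.cc) ho hG.1 hl hθ a1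
    have hT := (h1.app ho hG.1).own (fin1 o (s.own, [])).1
    simp only [base, if_true, sp_pure]
    refine ⟨(fin1 o (s.own, [])).1.get, ⟨hT, ⟨b1.small, b2, fun _ hx => nomatch hx⟩,
      fun _ _ => rfl⟩, b1.rep, fun e _ => ?_, ?_⟩
    · have e1 : (if e ∈ (G.app o).E then (fin1 o (s.own, [])).1.get e else 0) =
          (fin1 o (s.own, [])).1.get e := by
        split_ifs with e2
        · rfl
        · exact (b2 e e2).symm
      have e2 : (if e ∈ G.E then f e else 0) = s.own.get e := by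
        split_ifs with e2
        · exact h3 e e2
        · exact (h2.off e e2).symm
      rw [e1, e2]
      have := b3 e
      simpa [val] using this
    · rw [hT.om_eq, h1.om_eq, ← a2]
      have e1 := Nat.mul_le_mul_left θ hF.AU
      simp only [pm, List.length_nil, mul_zero, rw_nil, add_zero] at b4
      change _ + (k.wt + k.cc) * om (G.both o).U (G.both o).ed (fin1 o (s.own, [])).1.get + _ +
        k.wt * rw (G.both o).ed _ ≤ _
      omega
  · rintro s G f o ⟨h1, h2, h3⟩ hG
    have hl : ∀ e ∈ G.E, 1 ≤ (G.ed e).l := fun e he => (hG.2.2 e he).2.2.2.1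
    have hm := hG.2.1
    have hA := hF.AS
    simp only [base, one_ne_zero, if_false, if_true]
    refine (sp_enum h1 hG.1).bind ?_
    rintro l t ⟨ht, hE⟩
    refine (hb G l hG hE).bind ?_
    rintro u t' ⟨ht', hu, hn⟩
    cases u with
    | none =>
      simp only [sp_pure]
      refine ⟨f, fun _ => 0, ⟨h1, h2, h3⟩, fun _ hx => (nomatch hx), fun e _ => by simp, ?_, ?_⟩
      · simp only [Bool.false_eq_true, if_false]
        exact ⟨hF.th ▸ hn rfl, fun _ => trivial⟩
      · have e1 : θ * (t + (t' + 0)) ≤ θ * (k.c.m + T + 2 * K + 3) :=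
          Nat.mul_le_mul_left _ (by omega)
        simp only [List.length_nil, mul_zero, rw_nil, add_zero] at e1 ⊢
        omega
    | some w =>
      have hw := hu w rfl
      refine (sp_cyc (wt := k.wt) (cc := k.cc) h1.ed hG hF.lX hF.gX hF.rpκ hF.rpX hw
        (h2.any (rp := k.rp))).bind ?_
      rintro s' t'' ⟨c0, c1, c2, c3⟩
      have hT := h1.own s'.1
      have hκ : wl G.ed w ≤ κ :=
        ((wl_le fun x hx => (hG.2.2 _ (hw.1 x hx)).2.2.2.2.1).trans
          (Nat.mul_le_mul_right _ hw.2.1)).trans hF.lκ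
      simp only [sp_pure]
      refine ⟨s'.1.get, fun e => amt κ G.ed w * scnt w e, ⟨hT, c1.zero, fun _ _ => rfl⟩, c1.rep,
        fun e he => ?_, ?_, ?_⟩
      · have := c2 e
        rw [h3 e he]
        simpa [val] using this
      · simp only [if_true]
        exact hw.good hl hκ
      · rw [hT.om_eq, h1.om_eq]
        have e1 : θ * (t + (t' + (t'' + 0))) ≤ θ * (k.c.m + T + 2 * K + 3) :=
          Nat.mul_le_mul_left _ (by omega)
        simp only [pm, List.length_nil, mul_zero, rw_nil, add_zero] at c3 e1 ⊢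
        omega
  · rintro s G f o ⟨h1, h2, h3⟩ hG
    have hl : ∀ e ∈ G.E, 1 ≤ (G.ed e).l := fun e he => (hG.2.2 e he).2.2.2.1
    have hm := hG.2.1
    simp only [base, OfNat.ofNat_ne_zero, OfNat.ofNat_ne_one, if_false, if_true]
    refine (sp_repAll (wt := k.wt) (cc := k.cc) h1 hG.1 hl hθ (h2.any (rp := k.rp))).bind ?_
    rintro r t ⟨c0, c1, c2, c3⟩
    simp only [sp_pure]
    refine ⟨c1, fun e he => ?_, ?_⟩
    · rw [c2 e he, h3 e he]; simp [val]
    · rw [h1.om_eq]
      have e1 : θ * (k.c.m * (k.cc + 1) + 1) ≤ θ * k.AD := Nat.mul_le_mul_left _ hF.AD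
      have e2 : θ * t ≤ θ * (k.c.m + 1) := Nat.mul_le_mul_left _ (by omega)
      have e3 : θ * k.cc * G.U.card ≤ θ * k.cc * k.c.m := Nat.mul_le_mul_left _ hm
      simp only [pm, List.length_nil, mul_zero, rw_nil, add_zero] at c3 ⊢
      nlinarith
  · rintro s o -
    have e0 : ¬(3 : ℕ) = 2 := by omega
    simp only [base, OfNat.ofNat_ne_zero, OfNat.ofNat_ne_one, e0, if_false, sp_pure]
    refine ⟨⟨Tab.clear s, ⟨fun e => ?_, fun _ _ => rfl, fun _ hx => nomatch hx⟩, fun _ he => ?_⟩,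
      trivial, ?_⟩
    · simpa [clear] using hF.θ1
    · exact absurd he (notMem_empty _)
    · simp [Lv.om, clear, om]

end Crest.Agent.N325.Tw
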