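import Crest.Agent.N325.Tw.Top
import Crest.Agent.N325.Tw.Base

/-! # Row 325 (helper64): the tower meets the specification -/

set_option autoImplicit false

namespace Crest.Agent.N325.Tw

variable {S P T T0 : Type} {g : Gl} {θ κ : ℕ}

/-- change of the type of the states -/
theorem TowerSpec.map {run0 : Cmd × T0 → R (T0 × Rep × Bool)} {run : Cmd × T → R (T × Rep × Bool)}
    {k : TC} {Sh0 : T0 → Prop} {I0 : T0 → Gr → (ℕ → ℤ) → Prop} {Ψ0 : T0 → ℕ}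
    (h : TowerSpec g θ κ run0 k Sh0 I0 Ψ0) (Rl : T → T0 → Prop) {Ψ : T → ℕ}
    (hΨ : ∀ s s0, Rl s s0 → Ψ s = Ψ0 s0)
    (hr : ∀ c s s0 (Q : T0 × Rep × Bool → ℕ → Prop), Rl s s0 → Sp g (run0 (c, s0)) Q →
      Sp g (run (c, s)) fun r t => ∃ r0, Rl r.1 r0 ∧ Q (r0, r.2) t) :
    TowerSpec g θ κ run k (fun s => ∃ s0, Rl s s0 ∧ Sh0 s0) (fun s G f => ∃ s0, Rl s s0 ∧ I0 s0 G f)
      Ψ where
  sh := fun ⟨s0, a, b⟩ => ⟨s0, a, h.sh b⟩
  stale := fun ⟨_, _, b⟩ => h.stale b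
  upd := fun o ⟨s0, a, b⟩ ho hG hG' => (hr _ _ _ _ a (h.upd o b ho hG hG')).mono
    fun r t ⟨r0, c, f', d1, d2, d3, d4⟩ =>
      ⟨f', ⟨r0, c, d1⟩, d2, d3, by rw [hΨ _ _ a, hΨ _ _ c]; exact d4⟩
  step := fun o ⟨s0, a, b⟩ hG => (hr _ _ _ _ a (h.step o b hG)).mono
    fun r t ⟨r0, c, f', c', d1, d2, d3, d4, d5⟩ =>
      ⟨f', c', ⟨r0, c, d1⟩, d2, d3, d4, by rw [hΨ _ _ a, hΨ _ _ c]; exact d5⟩
  dump := fun o ⟨s0, a, b⟩ hG => (hr _ _ _ _ a (h.dump o b hG)).mono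
    fun r t ⟨_, _, d1, d2, d3⟩ => ⟨d1, d2, by rw [hΨ _ _ a]; exact d3⟩
  reset := fun o ⟨s0, a, b⟩ => (hr _ _ _ _ a (h.reset o b)).mono
    fun r t ⟨r0, c, d1, d2, d3⟩ => ⟨⟨r0, c, d1⟩, d2, by rw [hΨ _ _ c]; exact d3⟩

theorem TowerSpec.shape {run : Cmd × T → R (T × Rep × Bool)} {k : TC} {Sh Sh' : T → Prop}
    {I : T → Gr → (ℕ → ℤ) → Prop} {Ψ : T → ℕ} (h : TowerSpec g θ κ run k Sh I Ψ)
    (e : ∀ s, Sh s ↔ Sh' s) : TowerSpec g θ κ run k Sh' I Ψ :=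
  (funext fun s => propext (e s) : Sh = Sh') ▸ h

/-- the shape of a tower of height `n`: the level at height `i + 1` has the parameters number `i` -/
def Shape (ps : ℕ → P) (lim : ℕ → ℕ) : ℕ → List (Lv S P) → Prop
  | _, [] => False
  | 0, _ :: _ => True
  | n + 1, v :: l => v.p = ps n ∧ v.lim = lim n ∧ Shape ps lim n l

/-- **the tower**: stage `i` sits between the heights `i + 1` and `i`; `k 0` is the bottom -/
theorem tower_spec {σ : Stage S P} {bot : List (ℕ × Ed) → R (Option Wk)} {ps : ℕ → P} {sc : ℕ → SC}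
    {Z : ℕ → ℕ} {k : ℕ → TC} {K Tb : ℕ} (hb : BotSpec g bot (k 0).c (k 0).ψ K Tb)
    (hB : FitB g.X θ κ K Tb (k 0)) (n : ℕ)
    (hs : ∀ i < n, ∃ I Φ rc, StageSpec g σ (ps i) (sc i) I Φ rc)
    (hf : ∀ i < n, Fit g.X θ κ (sc i) (Z i) (k i) (k (i + 1))) :
    ∃ I Ψ, TowerSpec g θ κ (tower θ κ σ bot n) (k n) (Shape ps (fun i => (sc i).lim) n) I Ψ := by
  induction n with
  | zero =>
    refine ⟨_, _, ((base_spec (S := S) (P := P) hb hB).map (fun s v => ∃ l, s = v :: l)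
      (Ψ := fun s => List.casesOn s 0 fun v _ => ((k 0).wt + (k 0).cc) * v.om) ?_ ?_).shape ?_⟩
    · rintro _ v ⟨l, rfl⟩; rfl
    · rintro c _ v Q ⟨l, rfl⟩ h
      exact h.bind fun r t a => ⟨r.1, ⟨l, rfl⟩, a⟩
    · rintro (_ | ⟨v, l⟩)
      · simp [Shape]
      · simp [Shape]
  | succ n ih =>
    obtain ⟨I', Ψ', L⟩ := ih (fun i hi => hs i (by omega)) fun i hi => hf i (by omega)
    obtain ⟨I, Φ, rc, St⟩ := hs n (by omega)
    refine ⟨_, _, ((lvl_spec St L (hf n (by omega))).map (fun s x => s = x.1 :: x.2)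
      (Ψ := fun s => List.casesOn s 0 fun v l => LΨ θ (Z n) (k n) (k (n + 1)) Φ rc Ψ' (v, l))
      ?_ ?_).shape ?_⟩
    · rintro _ x rfl; rfl
    · rintro c _ x Q rfl h
      exact h.bind fun r t a => ⟨r.1, rfl, a⟩
    · rintro (_ | ⟨v, l⟩)
      · simp [Shape]
      · exact ⟨fun ⟨x, e, h⟩ => by obtain ⟨rfl, rfl⟩ := List.cons.inj e; exact h,
          fun h => ⟨(v, l), rfl, h⟩⟩

/-- an unused level -/
def blank (s : S) (p : P) (lim : ℕ) : Lv S P :=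
  ⟨p, lim, s, Arr.cst ⟨0, 0, 0, 0⟩, Arr.cst 0, [], Arr.cst 0, Arr.cst [], 0⟩

/-- a list of unused levels has the shape of a tower (start it with `reset`) -/
theorem shape_blank (s : S) (p0 : P) (ps : ℕ → P) (lim : ℕ → ℕ) (n : ℕ) :
    Shape ps lim n (((List.range n).map fun i => blank s (ps i) (lim i)).reverse ++
      [blank s p0 0]) := by
  induction n with
  | zero => trivial
  | succ n ih =>
    rw [List.range_succ, List.map_append, List.reverse_append]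
    exact ⟨rfl, rfl, ih⟩

end Crest.Agent.N325.Tw
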