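import Crest.Agent.N325.Tw.Defs

/-! # Row 325 (helper64): algebra of walks, reports and push-forwards -/

set_option autoImplicit false
open Finset

namespace Crest.Agent.N325.Tw

@[simp] theorem wsum_nil (f : ℕ → ℤ) : wsum f [] = 0 := rfl
@[simp] theorem wsum_cons (f : ℕ → ℤ) (x : ℕ × Bool) (w : Wk) :
    wsum f (x :: w) = sg x.2 * f x.1 + wsum f w := by simp [wsum]
theorem wsum_append (f : ℕ → ℤ) (w w' : Wk) : wsum f (w ++ w') = wsum f w + wsum f w' := by
  simp [wsum]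
@[simp] theorem scnt_nil (e : ℕ) : scnt [] e = 0 := rfl
theorem scnt_cons (x : ℕ × Bool) (w : Wk) (e : ℕ) :
    scnt (x :: w) e = (if x.1 = e then sg x.2 else 0) + scnt w e := by
  simp only [scnt, wsum_cons]; split_ifs <;> simp
@[simp] theorem mult_nil (e : ℕ) : mult [] e = 0 := rfl
theorem mult_cons (x : ℕ × Bool) (w : Wk) (e : ℕ) :
    mult (x :: w) e = (if x.1 = e then 1 else 0) + mult w e := by
  simp only [mult, List.map_cons, List.count_cons, beq_iff_eq]; omega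
@[simp] theorem wl_nil (ed : ℕ → Ed) : wl ed [] = 0 := rfl
@[simp] theorem wl_cons (ed : ℕ → Ed) (x : ℕ × Bool) (w : Wk) :
    wl ed (x :: w) = (ed x.1).l + wl ed w := by simp [wl]
@[simp] theorem rsum_nil (e : ℕ) : rsum [] e = 0 := rfl
theorem rsum_cons (x : ℕ × ℤ) (r : Rep) (e : ℕ) :
    rsum (x :: r) e = (if x.1 = e then x.2 else 0) + rsum r e := by simp [rsum]
@[simp] theorem rw_nil (ed : ℕ → Ed) : rw ed [] = 0 := rfl
@[simp] theorem rw_cons (ed : ℕ → Ed) (x : ℕ × ℤ) (r : Rep) :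
    rw ed (x :: r) = x.2.natAbs * (ed x.1).l + rw ed r := by simp [rw]

@[simp] theorem natAbs_sg (b : Bool) : (sg b).natAbs = 1 := by cases b <;> rfl
theorem ite_sg (b : Bool) (δ : ℤ) : (if b then δ else -δ) = sg b * δ := by
  cases b <;> simp [sg]

theorem natAbs_scnt_le (w : Wk) (e : ℕ) : (scnt w e).natAbs ≤ mult w e := by
  induction w with
  | nil => simp
  | cons x w ih =>
    rw [scnt_cons, mult_cons]
    refine (Int.natAbs_add_le _ _).trans (Nat.add_le_add ?_ ih)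
    split_ifs <;> simp

theorem mult_eq_zero {w : Wk} {e : ℕ} (h : ∀ x ∈ w, x.1 ≠ e) : mult w e = 0 := by
  induction w with
  | nil => rfl
  | cons x w ih =>
    rw [mult_cons, if_neg (h x (by simp)), ih fun y hy => h y (by simp [hy])]

theorem scnt_eq_zero {w : Wk} {e : ℕ} (h : ∀ x ∈ w, x.1 ≠ e) : scnt w e = 0 := by
  have := natAbs_scnt_le w e
  rw [mult_eq_zero h] at this
  exact Int.natAbs_eq_zero.1 (Nat.le_zero.1 this)

theorem sum_scnt {E : Finset ℕ} {w : Wk} (h : ∀ x ∈ w, x.1 ∈ E) (F : ℕ → ℤ) :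
    ∑ e ∈ E, scnt w e * F e = wsum F w := by
  induction w with
  | nil => simp
  | cons x w ih =>
    simp only [scnt_cons, add_mul, sum_add_distrib, wsum_cons, ih fun y hy => h y (by simp [hy])]
    congr 1
    simp only [ite_mul, zero_mul]
    rw [sum_ite_eq, if_pos (h x (by simp))]

theorem sum_mult {E : Finset ℕ} {w : Wk} (h : ∀ x ∈ w, x.1 ∈ E) (ed : ℕ → Ed) :
    ∑ e ∈ E, mult w e * (ed e).l = wl ed w := by
  induction w with
  | nil => simp
  | cons x w ih =>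
    simp only [mult_cons, add_mul, sum_add_distrib, wl_cons, ih fun y hy => h y (by simp [hy])]
    congr 1
    simp only [ite_mul, zero_mul, one_mul]
    rw [sum_ite_eq, if_pos (h x (by simp))]

theorem mult_mul_le (w : Wk) (ed : ℕ → Ed) (e : ℕ) : mult w e * (ed e).l ≤ wl ed w := by
  induction w with
  | nil => simp
  | cons x w ih =>
    rw [mult_cons, wl_cons, add_mul]
    refine Nat.add_le_add ?_ ih
    split_ifs with h
    · rw [h, one_mul]
    · simp

theorem wsum_congr {f f' : ℕ → ℤ} {w : Wk} (h : ∀ x ∈ w, f x.1 = f' x.1) : wsum f w = wsum f' w := by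
  induction w with
  | nil => rfl
  | cons x w ih => rw [wsum_cons, wsum_cons, h x (by simp), ih fun y hy => h y (by simp [hy])]

theorem wl_congr {ed ed' : ℕ → Ed} {w : Wk} (h : ∀ x ∈ w, ed x.1 = ed' x.1) : wl ed w = wl ed' w := by
  induction w with
  | nil => rfl
  | cons x w ih => rw [wl_cons, wl_cons, h x (by simp), ih fun y hy => h y (by simp [hy])]

theorem wl_le {ed : ℕ → Ed} {w : Wk} {b : ℕ} (h : ∀ x ∈ w, (ed x.1).l ≤ b) :
    wl ed w ≤ w.length * b := by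
  induction w with
  | nil => simp
  | cons x w ih =>
    have := ih fun y hy => h y (by simp [hy])
    have := h x (by simp)
    rw [wl_cons, List.length_cons, add_mul]; omega

theorem WOk.mono {K l : ℕ} {G G' : Gr} {w : Wk} (h : WOk K G l w) (hE : G.E ⊆ G'.E)
    (he : ∀ e ∈ G.E, G'.ed e = G.ed e) : WOk K G' l w :=
  ⟨fun x hx => hE (h.1 x hx), h.2.1, (wl_congr fun x hx => he _ (h.1 x hx)).trans_le h.2.2⟩

theorem rsum_eq_zero {r : Rep} {e : ℕ} (h : ∀ x ∈ r, x.1 ≠ e) : rsum r e = 0 := by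
  induction r with
  | nil => rfl
  | cons x r ih =>
    rw [rsum_cons, if_neg (h x (by simp)), ih fun y hy => h y (by simp [hy]), add_zero]

theorem sum_rsum {F : Finset ℕ} {r : Rep} (h : ∀ x ∈ r, x.1 ∈ F) (φ : ℕ → ℤ) :
    ∑ p ∈ F, rsum r p * φ p = (r.map fun x => x.2 * φ x.1).sum := by
  induction r with
  | nil => simp
  | cons x r ih =>
    simp only [rsum_cons, add_mul, sum_add_distrib, List.map_cons, List.sum_cons,
      ih fun y hy => h y (by simp [hy])]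
    congr 1
    simp only [ite_mul, zero_mul]
    rw [sum_ite_eq, if_pos (h x (by simp))]

theorem RepOk.mono {E E' : Finset ℕ} {D D' : ℕ} {r : Rep} (h : RepOk E D r) (hE : E ⊆ E')
    (hD : D ≤ D') : RepOk E' D' r := fun x hx => ⟨hE (h x hx).1, (h x hx).2.trans hD⟩

/-- the push-forward of a flow on the next graph -/
def pf (E : Finset ℕ) (wk : ℕ → Wk) (c : ℕ → ℤ) (e : ℕ) : ℤ := ∑ p ∈ E, c p * scnt (wk p) e

theorem sum_pf {E F : Finset ℕ} {wk : ℕ → Wk} (h : ∀ p ∈ F, ∀ x ∈ wk p, x.1 ∈ E) (c φ : ℕ → ℤ) :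
    ∑ e ∈ E, pf F wk c e * φ e = ∑ p ∈ F, c p * wsum φ (wk p) := by
  simp only [pf, sum_mul]
  rw [sum_comm]
  refine sum_congr rfl fun p hp => ?_
  rw [← sum_scnt (h p hp), mul_sum]
  exact sum_congr rfl fun e _ => by ring

theorem natAbs_pf_le (F : Finset ℕ) (wk : ℕ → Wk) (c : ℕ → ℤ) (e : ℕ) :
    (pf F wk c e).natAbs ≤ ∑ p ∈ F, (c p).natAbs * mult (wk p) e := by
  unfold pf
  refine (Int.natAbs_sum_le _ _).trans (sum_le_sum fun p _ => ?_)
  rw [Int.natAbs_mul]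
  exact Nat.mul_le_mul_left _ (natAbs_scnt_le _ _)

theorem Rel.good {K ρ ψ κ : ℕ} {G H : Gr} {wk : ℕ → Wk} (h : Rel K ρ G H wk) {c : ℕ → ℤ}
    (hc : Good ψ κ H c) : Good ψ κ G (pf H.E wk c) := by
  have hw : ∀ p ∈ H.E, ∀ x ∈ wk p, x.1 ∈ G.E := fun p hp => (h.wok p hp).1
  refine ⟨fun z => ?_, ?_, ?_⟩
  · obtain ⟨π, hπ⟩ := h.tel
    rw [sum_pf hw, ← hc.1 fun v => z (π v)]
    exact sum_congr rfl fun p hp => by rw [hπ p hp z]; rfl
  · refine le_trans ?_ hc.2.1
    calc ∑ e ∈ G.E, (pf H.E wk c e).natAbs * (G.ed e).l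
        ≤ ∑ e ∈ G.E, (∑ p ∈ H.E, (c p).natAbs * mult (wk p) e) * (G.ed e).l :=
          sum_le_sum fun e _ => Nat.mul_le_mul_right _ (natAbs_pf_le _ _ _ _)
      _ = ∑ p ∈ H.E, (c p).natAbs * wl G.ed (wk p) := by
          simp only [sum_mul]
          rw [sum_comm]
          refine sum_congr rfl fun p hp => ?_
          rw [← sum_mult (hw p hp), mul_sum]
          exact sum_congr rfl fun e _ => by ring
      _ ≤ _ := sum_le_sum fun p hp => Nat.mul_le_mul_left _ (h.wok p hp).2.2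
  · rw [sum_pf hw]
    refine le_trans (le_of_eq ?_) hc.2.2
    congr 2
    exact sum_congr rfl fun p hp => by rw [h.grad p hp]; rfl

theorem Rel.stale {K ρ er : ℕ} {G H : Gr} {wk : ℕ → Wk} (h : Rel K ρ G H wk) {f : ℕ → ℤ}
    (hf : ∀ p ∈ H.E, (f p).natAbs * (H.ed p).l ≤ er) {e : ℕ} (he : e ∈ G.E) :
    (pf H.E wk f e).natAbs * (G.ed e).l ≤ ρ * er := by
  calc (pf H.E wk f e).natAbs * (G.ed e).l
      ≤ (∑ p ∈ H.E, (f p).natAbs * mult (wk p) e) * (G.ed e).l :=
        Nat.mul_le_mul_right _ (natAbs_pf_le _ _ _ _)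
    _ ≤ ∑ p ∈ H.E, mult (wk p) e * er := by
        rw [sum_mul]
        refine sum_le_sum fun p hp => ?_
        rcases Nat.eq_zero_or_pos (mult (wk p) e) with h0 | h0
        · simp [h0]
        · have h1 : (G.ed e).l ≤ (H.ed p).l :=
            ((Nat.le_mul_of_pos_left _ h0).trans (mult_mul_le _ _ _)).trans (h.wok p hp).2.2
          calc (f p).natAbs * mult (wk p) e * (G.ed e).l
              = mult (wk p) e * ((f p).natAbs * (G.ed e).l) := by ring
            _ ≤ _ := Nat.mul_le_mul_left _ ((Nat.mul_le_mul_left _ h1).trans (hf p hp))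
    _ ≤ ρ * er := by rw [← sum_mul]; exact Nat.mul_le_mul_right _ (h.use e he)

/-- the amount of a step along `w` -/
def amt (κ : ℕ) (ed : ℕ → Ed) (w : Wk) : ℤ :=
  if 0 < wg ed w then -((κ / wl ed w : ℕ) : ℤ) else ((κ / wl ed w : ℕ) : ℤ)

theorem natAbs_amt (κ : ℕ) (ed : ℕ → Ed) (w : Wk) : (amt κ ed w).natAbs = κ / wl ed w := by
  unfold amt; split_ifs <;> simp only [Int.natAbs_neg, Int.natAbs_natCast]

theorem Cyc.good {ψ K κ : ℕ} {G : Gr} {w : Wk} (h : Cyc ψ K G w) (h1 : ∀ e ∈ G.E, 1 ≤ (G.ed e).l)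
    (hκ : wl G.ed w ≤ κ) : Good ψ κ G fun e => amt κ G.ed w * scnt w e := by
  obtain ⟨hw, -, ht, hr⟩ := h
  have hpos : 0 < wl G.ed w := by
    cases w with
    | nil => simp [wg] at hr
    | cons x w => have := h1 _ (hw x (by simp)); rw [wl_cons]; omega
  have hq : κ / wl G.ed w * wl G.ed w ≤ κ := Nat.div_mul_le_self _ _
  have hq2 : κ ≤ 2 * (κ / wl G.ed w * wl G.ed w) := by
    have h2 := Nat.div_add_mod κ (wl G.ed w)
    have h3 := Nat.mod_lt κ hpos
    have h4 : 1 ≤ κ / wl G.ed w := (Nat.le_div_iff_mul_le hpos).2 (by omega)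
    have h5 : wl G.ed w ≤ κ / wl G.ed w * wl G.ed w := Nat.le_mul_of_pos_left _ h4
    rw [mul_comm] at h2; omega
  refine ⟨fun z => ?_, ?_, ?_⟩
  · simp only [mul_assoc]
    rw [← mul_sum, sum_scnt hw, ht z, sub_self, mul_zero]
  · refine le_trans ?_ hq
    have e0 : κ / wl G.ed w * wl G.ed w = κ / wl G.ed w * ∑ e ∈ G.E, mult w e * (G.ed e).l := by
      rw [sum_mult hw]
    rw [e0, mul_sum]
    refine sum_le_sum fun e _ => ?_
    rw [Int.natAbs_mul, natAbs_amt, mul_assoc]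
    exact Nat.mul_le_mul_left _ (Nat.mul_le_mul_right _ (natAbs_scnt_le _ _))
  · simp only [mul_assoc]
    rw [← mul_sum, sum_scnt hw]
    change 2 * (amt κ G.ed w * wg G.ed w) + ψ * κ ≤ 0
    have e1 : amt κ G.ed w * wg G.ed w = -((κ / wl G.ed w * (wg G.ed w).natAbs : ℕ) : ℤ) := by
      unfold amt
      rw [Nat.cast_mul, Int.natCast_natAbs]
      split_ifs with h0
      · rw [abs_of_pos h0]; ring
      · rw [abs_of_nonpos (not_lt.1 h0)]; ring
    have e2 : ψ * κ ≤ 2 * (κ / wl G.ed w * (wg G.ed w).natAbs) := by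
      calc ψ * κ ≤ ψ * (2 * (κ / wl G.ed w * wl G.ed w)) := Nat.mul_le_mul_left _ hq2
        _ = 2 * (κ / wl G.ed w * (ψ * wl G.ed w)) := by ring
        _ ≤ _ := Nat.mul_le_mul_left _ (Nat.mul_le_mul_left _ hr.le)
    rw [e1]
    have e3 : ((ψ * κ : ℕ) : ℤ) ≤ ((2 * (κ / wl G.ed w * (wg G.ed w).natAbs) : ℕ) : ℤ) :=
      Int.ofNat_le.2 e2
    rw [Nat.cast_mul, Nat.cast_mul 2, Nat.cast_ofNat] at e3
    linarith

end Crest.Agent.N325.Tw
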