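import Crest.Agent.N325.Tw.Defs

/-! Row 325 (helper16): walks with named heads, for the Bellman–Ford search at the bottom. -/

set_option autoImplicit false

namespace Crest.Agent.N325.Tw.Bot

/-- an arc together with its head -/
abbrev En := ℕ × ℕ × Bool

def hd (ed : ℕ → Ed) (a : ℕ × Bool) : ℕ := if a.2 then (ed a.1).b else (ed a.1).a
def tl (ed : ℕ → Ed) (a : ℕ × Bool) : ℕ := if a.2 then (ed a.1).a else (ed a.1).b
/-- cost of an arc -/
def ca (ψ : ℕ) (ed : ℕ → Ed) (a : ℕ × Bool) : ℤ := sg a.2 * (ed a.1).g + (ψ * (ed a.1).l : ℕ)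
/-- cost of a list of arcs -/
def cw (ψ : ℕ) (ed : ℕ → Ed) (w : List En) : ℤ := (w.map fun x => ca ψ ed x.2).sum

/-- a walk ending at `v`, last arc first -/
def Wlk (G : Gr) : ℕ → List En → Prop
  | _, [] => True
  | v, x :: r => x.1 = v ∧ x.2.1 ∈ G.E ∧ hd G.ed x.2 = v ∧ Wlk G (tl G.ed x.2) r

variable {G : Gr} {ψ : ℕ}

@[simp] theorem cw_nil (ed : ℕ → Ed) : cw ψ ed [] = 0 := rfl
@[simp] theorem cw_cons (ed : ℕ → Ed) (x : En) (w : List En) :
    cw ψ ed (x :: w) = ca ψ ed x.2 + cw ψ ed w := by simp [cw]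
@[simp] theorem cw_append (ed : ℕ → Ed) (w w' : List En) :
    cw ψ ed (w ++ w') = cw ψ ed w + cw ψ ed w' := by simp [cw]

theorem Wlk.mem {v : ℕ} {w : List En} (h : Wlk G v w) :
    ∀ x ∈ w, x.2.1 ∈ G.E ∧ x.1 = hd G.ed x.2 := by
  induction w generalizing v with
  | nil => simp
  | cons y r ih =>
    intro x hx
    rcases List.mem_cons.1 hx with rfl | hx
    · exact ⟨h.2.1, h.1.trans h.2.2.1.symm⟩
    · exact ih h.2.2.2 x hx

theorem Wlk.split {v : ℕ} {w : List En} {x : En} {r : List En} (h : Wlk G v (w ++ x :: r)) :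
    Wlk G x.1 (x :: r) ∧ (∀ r', Wlk G x.1 r' → Wlk G v (w ++ r')) ∧
      Tel G.ed (w.map Prod.snd) x.1 v := by
  induction w generalizing v with
  | nil =>
    obtain rfl : x.1 = v := h.1
    exact ⟨h, fun _ k => k, fun z => by simp [wsum]⟩
  | cons y w ih =>
    obtain ⟨h1, h2, h3, h4⟩ := h
    obtain ⟨a, b, c⟩ := ih h4
    refine ⟨a, fun r' k => ⟨h1, h2, h3, b r' k⟩, fun z => ?_⟩
    have := c z
    simp only [wsum, List.map_cons, List.sum_cons] at this ⊢
    rw [this, ← h3]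
    unfold hd tl dz sg
    cases y.2.2 <;> simp

theorem cw_eq (ed : ℕ → Ed) (w : List En) :
    cw ψ ed w = wg ed (w.map Prod.snd) + (ψ * wl ed (w.map Prod.snd) : ℕ) := by
  induction w with
  | nil => simp [wg, wsum, wl]
  | cons x w ih =>
    rw [cw_cons, ih]
    simp only [ca, wg, wsum, wl, List.map_cons, List.sum_cons]
    push_cast; ring

theorem abs_cw_le {c : Bd} (hG : G.Ok c) {w : List En} (h : ∀ x ∈ w, x.2.1 ∈ G.E) :
    (cw ψ G.ed w).natAbs ≤ w.length * (c.gb + ψ * c.lb) := by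
  induction w with
  | nil => simp
  | cons x w ih =>
    have h1 := ih fun y hy => h y (by simp [hy])
    obtain ⟨-, -, -, -, h2, h3⟩ := hG.2.2 _ (h x (by simp))
    have h4 := Nat.mul_le_mul_left ψ h2
    have h5 : (sg x.2.2 * (G.ed x.2.1).g).natAbs = (G.ed x.2.1).g.natAbs := by
      unfold sg; cases x.2.2 <;> simp
    rw [cw_cons, List.length_cons, add_mul, ca]
    omega

/-- `D` is below the cost of all walks with at most `i` arcs -/
def Opt (ψ : ℕ) (G : Gr) (i : ℕ) (D : ℕ → ℤ) : Prop :=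
  ∀ v w, Wlk G v w → w.length ≤ i → D v ≤ cw ψ G.ed w

theorem Opt.zero : Opt ψ G 0 fun _ => 0 := by
  intro v w _ h
  rw [List.length_eq_zero_iff.1 (Nat.le_zero.1 h)]; simp

theorem Opt.succ {i : ℕ} {D D' : ℕ → ℤ} (h : Opt ψ G i D) (h1 : ∀ v, D' v ≤ D v)
    (h2 : ∀ a : ℕ × Bool, a.1 ∈ G.E → D' (hd G.ed a) ≤ D (tl G.ed a) + ca ψ G.ed a) :
    Opt ψ G (i + 1) D' := by
  intro v w hw hl
  cases w with
  | nil => exact (h1 v).trans (h v [] trivial (Nat.zero_le _))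
  | cons x r =>
    obtain ⟨-, a, b, c⟩ := hw
    have := h _ r c (by simpa using hl)
    have := h2 x.2 a
    rw [cw_cons, ← b]; omega

theorem Cyc.perm {K : ℕ} {w w' : Wk} (h : Cyc ψ K G w) (p : w.Perm w') : Cyc ψ K G w' := by
  obtain ⟨h1, h2, h3, h4⟩ := h
  have e : ∀ f, wsum f w' = wsum f w := fun f => ((p.map _).sum_eq).symm
  refine ⟨fun x hx => h1 x (p.mem_iff.2 hx), p.length_eq ▸ h2, fun z => (e _).trans (h3 z), ?_⟩
  rw [wg, e, wl, ← (p.map _).sum_eq]; exact h4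

/-- a repeated head on a walk that beats all shorter walks encloses a negative cycle -/
theorem cyc_of_rep {i v : ℕ} {D : ℕ → ℤ} (hD : Opt ψ G i D) {w1 r1 r2 : List En} {x y : En}
    (hw : Wlk G v (w1 ++ x :: (r1 ++ y :: r2))) (hxy : y.1 = x.1)
    (hl : (w1 ++ x :: (r1 ++ y :: r2)).length ≤ i + 1)
    (hc : cw ψ G.ed (w1 ++ x :: (r1 ++ y :: r2)) < D v) :
    Cyc ψ (i + 1) G (x.2 :: r1.map Prod.snd) := by
  obtain ⟨a, b, -⟩ := hw.split
  have a' : Wlk G x.1 ((x :: r1) ++ y :: r2) := a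
  obtain ⟨c, -, d⟩ := a'.split
  have h1 := hD v _ (b (y :: r2) (hxy ▸ c)) (by simp at hl ⊢; omega)
  have h2 : cw ψ G.ed (x :: r1) < 0 := by simp at hc h1 ⊢; omega
  rw [cw_eq] at h2
  refine ⟨fun z hz => ?_, by simp at hl ⊢; omega, fun z => ?_, ?_⟩
  · obtain ⟨u, hu, rfl⟩ := List.mem_map.1 (show z ∈ (x :: r1).map Prod.snd from hz)
    exact (a'.mem u (List.mem_append_left _ hu)).1
  · have := d z
    rw [hxy] at this
    simpa using this
  · rw [List.map_cons] at h2; omega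

/-- no violated arc: flat -/
theorem flat_of {D : ℕ → ℤ}
    (h : ∀ a : ℕ × Bool, a.1 ∈ G.E → D (hd G.ed a) ≤ D (tl G.ed a) + ca ψ G.ed a) : Flat G ψ := by
  refine ⟨fun v => D v, fun e he => ?_⟩
  have h1 := h (e, true) he
  have h2 := h (e, false) he
  simp only [hd, tl, ca, sg, if_true, Bool.false_eq_true, if_false] at h1 h2
  have h3 : |(G.ed e).g - (D (G.ed e).b - D (G.ed e).a)| ≤ ((ψ * (G.ed e).l : ℕ) : ℤ) :=
    abs_le.2 ⟨by omega, by omega⟩
  have h4 : ((|(G.ed e).g - (D (G.ed e).b - D (G.ed e).a)| : ℤ) : ℝ) ≤ (((ψ * (G.ed e).l : ℕ) : ℤ) : ℝ) :=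
    Int.cast_le.2 h3
  push_cast at h4
  exact h4

/-- a walk with distinct heads is short -/
theorem length_le_of_nodup {l : List (ℕ × Ed)} (hl : Enum G l) {v : ℕ} {w : List En}
    (hw : Wlk G v w) (hn : (w.map Prod.fst).Nodup) : w.length ≤ 2 * l.length := by
  have : w.map Prod.fst ⊆ l.map (fun x => x.2.a) ++ l.map fun x => x.2.b := by
    intro u hu
    obtain ⟨x, hx, rfl⟩ := List.mem_map.1 hu
    obtain ⟨h1, h2⟩ := hw.mem x hx
    obtain ⟨y, hy, e⟩ := List.mem_map.1 ((hl.2.1 _).1 h1)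
    have e2 := hl.2.2 y hy
    rw [h2, hd, ← e, e2, List.mem_append]
    split_ifs
    · exact Or.inr (List.mem_map.2 ⟨y, hy, rfl⟩)
    · exact Or.inl (List.mem_map.2 ⟨y, hy, rfl⟩)
  have := (hn.subperm this).length_le
  simp only [List.length_map, List.length_append] at this
  omega

theorem length_le_of_enum {c : Bd} (hG : G.Ok c) {l : List (ℕ × Ed)} (hl : Enum G l) :
    l.length ≤ c.m := by
  have : (l.map Prod.fst).toFinset = G.E := by ext e; rw [List.mem_toFinset, hl.2.1]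
  rw [← List.length_map Prod.fst, ← List.toFinset_card_of_nodup hl.1, this]
  exact (Finset.card_le_card hG.1).trans hG.2.1

end Crest.Agent.N325.Tw.Bot
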