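import Crest.Agent.N325.Tw.Push

/-! # Row 325 (helper64): the conditions on the constants of the levels, tables, invariants -/

set_option autoImplicit false
open Finset

namespace Crest.Agent.N325.Tw

/-- the constants `k` of a level fit the stage `sc` and the constants `k'` of the tower below;
`Z` = saving per update for the next rebuild -/
structure Fit (X θ κ : ℕ) (sc : SC) (Z : ℕ) (k' k : TC) : Prop where
  θ1 : 0 < θ
  c : k.c = sc.c
  c' : k'.c = sc.c'
  th : k.th = sc.th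
  th' : k'.th = sc.th'
  ψ : k.ψ = sc.ψ
  ψ' : k'.ψ = sc.ψ
  lim : 0 < sc.lim
  m' : sc.RB + sc.RU * sc.lim ≤ sc.c'.m
  er : θ + sc.ρ * k'.er ≤ k.er
  rp : θ + k'.rp ≤ k.rp
  rpκ : θ + κ ≤ k.rp
  rpX : k.rp ≤ X
  wt : k.wt + k.cc ≤ k'.wt
  cc : sc.K + 2 ≤ k'.cc
  lκ : sc.K * sc.c.lb ≤ κ
  lX : sc.K * sc.c.lb ≤ X
  gX : sc.K * sc.c.gb ≤ X
  AR : k'.AR + sc.c.m + sc.TB + sc.RB * (k'.AU + 3) + 3 ≤ k.AR
  sav : k'.AD + 2 + k.AR ≤ sc.lim * Z
  AU : sc.TU + sc.RU * (k'.AU + 3) + Z + k.cc + 1 ≤ k.AU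
  AS : θ * (2 * k'.AS + sc.TU + sc.RU * (k'.AU + 3) + Z + 2 * sc.K + 7) + (k.wt + k.cc) * κ ≤
    θ * k.AS
  AD : k'.AD + sc.c.m * (k.cc + 1) + 3 ≤ k.AD

/-- the constants of the bottom level fit the bottom search -/
structure FitB (X θ κ K T : ℕ) (k : TC) : Prop where
  θ1 : 0 < θ
  th : k.th = k.ψ
  er : θ ≤ k.er
  rpκ : θ + κ ≤ k.rp
  rpX : k.rp ≤ X
  lκ : K * k.c.lb ≤ κ
  lX : K * k.c.lb ≤ X
  gX : K * k.c.gb ≤ X
  AU : k.cc ≤ k.AU
  AS : θ * (k.c.m + T + 2 * K + 3) + (k.wt + k.cc) * κ ≤ θ * k.AS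
  AD : k.c.m * (k.cc + 1) + 1 ≤ k.AD

variable {S P T : Type}

/-- the tables of a level describe `G` -/
structure Tab (v : Lv S P) (G : Gr) : Prop where
  ed : v.ed.get = G.ed
  nd : v.ids.Nodup
  ids : v.ids.toFinset = G.U
  al2 : ∀ e, v.al.get e = 2 ↔ e ∈ G.E
  al0 : ∀ e, v.al.get e = 0 ↔ e ∉ G.U

/-- the potential of the unreported flow of a level -/
def Lv.om (v : Lv S P) : ℕ := Tw.om v.ids.toFinset v.ed.get v.own.get

/-- invariant of the bottom level -/
def BI (θ : ℕ) (v : Lv S P) (G : Gr) (f : ℕ → ℤ) : Prop :=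
  Tab v G ∧ PS θ 0 G (v.own, []) ∧ ∀ e ∈ G.E, f e = v.own.get e

/-- invariant of a level -/
def LI (θ : ℕ) (p : P) (sc : SC) (I : S → Gr → Gr → (ℕ → Wk) → ℕ → Prop) (rc : S → ℕ)
    (I' : T → Gr → (ℕ → ℤ) → Prop) (x : Lv S P × T) (G : Gr) (f : ℕ → ℤ) : Prop :=
  ∃ H fl, Tab x.1 G ∧ x.1.p = p ∧ x.1.lim = sc.lim ∧ x.1.cnt < sc.lim ∧
    I x.1.st G H x.1.wk.get x.1.cnt ∧ I' x.2 H fl ∧ H.Ok sc.c' ∧
    H.U.card + rc x.1.st ≤ sc.RB + sc.RU * x.1.cnt ∧ PS θ 0 G (x.1.own, []) ∧
    ∀ e ∈ G.E, f e = x.1.own.get e + pf H.E x.1.wk.get fl e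

/-- potential of a level -/
def LΨ (θ Z : ℕ) (k' k : TC) (Φ rc : S → ℕ) (Ψ' : T → ℕ) (x : Lv S P × T) : ℕ :=
  (k.wt + k.cc) * x.1.om + θ * (Φ x.1.st + rc x.1.st * (k'.AU + 3) + x.1.cnt * Z) + Ψ' x.2

theorem Gr.app_E_sub (G : Gr) (o : Op) : (G.app o).E ⊆ insert o.1 G.E := by
  unfold Gr.app
  cases o.2 with
  | none => exact (erase_subset _ _).trans (subset_insert _ _)
  | some d => exact subset_rfl

theorem Gr.app_ed {G : Gr} {o : Op} (h : G.ok o) {e : ℕ} (he : e ∈ G.E) :
    (G.app o).ed e = G.ed e := by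
  obtain ⟨p, _ | d⟩ := o
  · rfl
  · exact Function.update_of_ne (fun e1 => h (by rw [← e1]; exact he)) _ _

theorem Gr.app_U_card (G : Gr) (o : Op) : (G.app o).U.card ≤ G.U.card + 1 := by
  obtain ⟨p, _ | d⟩ := o
  · exact Nat.le_succ _
  · exact card_insert_le _ _

theorem Gr.ins_sub {G : Gr} {o : Op} (h : G.ok o) (hU : G.E ⊆ G.U) :
    insert o.1 G.E ⊆ (G.app o).U := by
  obtain ⟨p, _ | d⟩ := o
  · exact insert_subset (hU h) hU
  · exact insert_subset_insert _ hU

theorem Tab.app {v : Lv S P} {G : Gr} (h : Tab v G) {o : Op} (ho : G.ok o) (hU : G.E ⊆ G.U) :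
    Tab (tab o v) (G.app o) := by
  obtain ⟨p, _ | d⟩ := o
  · have hp : p ∈ G.E := ho
    refine ⟨h.ed, h.nd, h.ids, fun e => ?_, fun e => ?_⟩
    · change (v.al.set p 1).get e = 2 ↔ e ∈ G.E.erase p
      rw [Arr.get_set, mem_erase]; split_ifs with e1
      · simp [e1]
      · simp [e1, h.al2]
    · change (v.al.set p 1).get e = 0 ↔ e ∉ G.U
      rw [Arr.get_set]; split_ifs with e1
      · simp [e1, hU hp]
      · exact h.al0 e
  · refine ⟨?_, ?_, ?_, fun e => ?_, fun e => ?_⟩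
    · change (v.ed.set p d).get = Function.update G.ed p d
      rw [Arr.set_get, h.ed]
    · change (if v.al.get p = 0 then p :: v.ids else v.ids).Nodup
      split_ifs with e1
      · exact List.nodup_cons.2 ⟨fun e2 => (h.al0 p).1 e1 (h.ids ▸ List.mem_toFinset.2 e2), h.nd⟩
      · exact h.nd
    · change (if v.al.get p = 0 then p :: v.ids else v.ids).toFinset = insert p G.U
      split_ifs with e1
      · rw [List.toFinset_cons, h.ids]
      · rw [h.ids, insert_eq_of_mem (not_not.1 fun e2 => e1 ((h.al0 p).2 e2))]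
    · change (v.al.set p 2).get e = 2 ↔ e ∈ insert p G.E
      rw [Arr.get_set, mem_insert]; split_ifs with e1
      · simp [e1]
      · simp [e1, h.al2]
    · change (v.al.set p 2).get e = 0 ↔ e ∉ insert p G.U
      rw [Arr.get_set, mem_insert]; split_ifs with e1
      · simp [e1]
      · simp [e1, h.al0]

theorem Tab.clear (v : Lv S P) : Tab (clear v) Gr.emp :=
  ⟨rfl, List.nodup_nil, rfl, fun e => by simp [Tw.clear, Gr.emp], fun e => by simp [Tw.clear, Gr.emp]⟩

theorem Tab.len {v : Lv S P} {G : Gr} (h : Tab v G) : v.ids.length = G.U.card := by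
  rw [← h.ids, List.toFinset_card_of_nodup h.nd]

variable {g : Gl}

/-- the filter loops of `enum` and `repAll` -/
theorem sp_filt {β : Type} (al : Arr ℕ) (φ : ℕ → β) (ids : List ℕ) (l0 : List (ℕ × β)) :
    Sp g (foldL (fun e l => pure (if al.get e = 2 then (e, φ e) :: l else l)) ids l0) fun l t =>
      t ≤ ids.length + 1 ∧
        l = ((ids.filter fun e => al.get e = 2).map fun e => (e, φ e)).reverse ++ l0 := by
  refine (sp_foldL (fun r l t => t + r.length = ids.length ∧
      ((r.filter fun e => al.get e = 2).map fun e => (e, φ e)).reverse ++ l =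
      ((ids.filter fun e => al.get e = 2).map fun e => (e, φ e)).reverse ++ l0) ?_ (t := 0)
      ⟨by simp, rfl⟩).mono ?_
  · rintro a r l t ⟨a1, a2⟩
    rw [sp_pure, ← a2]
    refine ⟨by rw [List.length_cons] at a1; omega, ?_⟩
    by_cases h : al.get a = 2 <;> simp [h]
  · rintro l t ⟨u, rfl, a1, a2⟩
    exact ⟨by simp at a1; omega, by simpa using a2⟩

theorem sp_enum {v : Lv S P} {G : Gr} (h : Tab v G) (hU : G.E ⊆ G.U) :
    Sp g (enum v) fun l t => t ≤ G.U.card + 1 ∧ Enum G l := by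
  refine (sp_filt v.al v.ed.get v.ids []).mono ?_
  rintro l t ⟨a1, rfl⟩
  refine ⟨h.len ▸ a1, ?_, fun e => ?_, fun x hx => ?_⟩
  · rw [List.append_nil, List.map_reverse, List.map_map, List.nodup_reverse]
    simpa [Function.comp_def] using h.nd.filter _
  · simp only [List.append_nil, List.map_reverse, List.map_map, List.mem_reverse, Function.comp_def,
      List.map_id', List.mem_filter, decide_eq_true_eq, h.al2]
    exact ⟨fun he => ⟨List.mem_toFinset.1 (h.ids ▸ hU he), he⟩, fun he => he.2⟩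
  · simp only [List.append_nil, List.mem_reverse, List.mem_map] at hx
    obtain ⟨e, -, rfl⟩ := hx
    rw [← h.ed]

theorem rsum_append (r r' : Rep) (e : ℕ) : rsum (r ++ r') e = rsum r e + rsum r' e := by
  simp [rsum]
theorem rw_append (ed : ℕ → Ed) (r r' : Rep) : rw ed (r ++ r') = rw ed r + rw ed r' := by
  simp [rw]

theorem sp_repAll {θ rp wt cc : ℕ} {v : Lv S P} {G : Gr} (h : Tab v G) (hU : G.E ⊆ G.U)
    (h1 : ∀ e ∈ G.E, 1 ≤ (G.ed e).l) (hθ : θ ≤ rp) {s : So} (hs : PS θ rp G s) :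
    Sp g (repAll v s) fun r t => t ≤ G.U.card + 1 ∧ RepOk G.E rp r ∧
      (∀ e ∈ G.E, rsum r e = val s e) ∧
      θ * cc * r.length + wt * rw G.ed r ≤ pm θ wt cc G s + θ * cc * G.U.card := by
  refine (sp_filt v.al s.1.get v.ids s.2).mono ?_
  rintro l t ⟨a1, rfl⟩
  have hF : (v.ids.filter fun e => v.al.get e = 2).toFinset = G.E := by
    ext e
    simp only [List.toFinset_filter, mem_filter, decide_eq_true_eq, h.al2, h.ids]
    exact ⟨fun he => he.2, fun he => ⟨hU he, he⟩⟩
  have hn : (v.ids.filter fun e => v.al.get e = 2).Nodup := h.nd.filter _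
  generalize (v.ids.filter fun e => v.al.get e = 2) = L at hF hn
  refine ⟨h.len ▸ a1, fun x hx => ?_, fun e he => ?_, ?_⟩
  · rcases List.mem_append.1 hx with hx | hx
    · simp only [List.mem_reverse, List.mem_map] at hx
      obtain ⟨e, he, rfl⟩ := hx
      have he' : e ∈ G.E := hF ▸ List.mem_toFinset.2 he
      exact ⟨he', ((Nat.le_mul_of_pos_right _ (h1 e he')).trans (hs.small e).le).trans hθ⟩
    · exact hs.rep x hx
  · rw [rsum_append, val]
    congr 1
    simp only [rsum, List.map_reverse, List.sum_reverse, List.map_map, Function.comp_def]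
    rw [← List.sum_toFinset _ hn, hF, sum_ite_eq', if_pos he]
  · have e1 : rw G.ed (L.map fun e => (e, s.1.get e)).reverse ≤ om G.U G.ed s.1.get := by
      simp only [rw, List.map_reverse, List.sum_reverse, List.map_map, Function.comp_def]
      rw [← List.sum_toFinset _ hn, hF]
      exact sum_le_sum_of_subset hU
    have e2 : L.length ≤ G.U.card := by
      rw [← List.toFinset_card_of_nodup hn, hF]; exact card_le_card hU
    rw [rw_append, List.length_append, List.length_reverse, List.length_map, pm]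
    have e3 := Nat.mul_le_mul_left wt e1
    have e4 := Nat.mul_le_mul_left (θ * cc) e2
    rw [mul_add, mul_add, add_mul]; omega

/-- the graph that contains the edges before and after an update -/
def Gr.both (G : Gr) (o : Op) : Gr := ⟨(G.app o).U, insert o.1 G.E, (G.app o).ed⟩

/-- the report of a deleted edge -/
theorem fin1_spec {θ rp wt cc : ℕ} {G : Gr} {o : Op} (ho : G.ok o) (hU : G.E ⊆ G.U)
    (h1 : ∀ e ∈ G.E, 1 ≤ (G.ed e).l) (hθ : θ ≤ rp) {s : So} (hs : PS θ rp (G.both o) s) :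
    PS θ rp (G.both o) (fin1 o s) ∧ (∀ e, e ∉ (G.app o).E → (fin1 o s).1.get e = 0) ∧
      (∀ e, val (fin1 o s) e = val s e) ∧
      pm θ wt cc (G.both o) (fin1 o s) ≤ pm θ wt cc (G.both o) s + θ * cc := by
  obtain ⟨p, _ | d⟩ := o
  · have hp : p ∈ G.E := ho
    have h0 : 0 < θ := (Nat.zero_le _).trans_lt (hs.small 0)
    change PS θ rp _ (s.1.set p 0, (p, s.1.get p) :: s.2) ∧
      (∀ e, e ∉ G.E.erase p → (s.1.set p 0).get e = 0) ∧
      (∀ e, val (s.1.set p 0, (p, s.1.get p) :: s.2) e = _) ∧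
      pm θ wt cc _ (s.1.set p 0, (p, s.1.get p) :: s.2) ≤ _
    refine ⟨⟨fun e => ?_, fun e he => ?_, fun y hy => ?_⟩, fun e he => ?_, fun e => ?_, ?_⟩
    · rw [Arr.get_set]; split_ifs
      · simpa using h0
      · exact hs.small e
    · rw [Arr.get_set]; split_ifs
      · rfl
      · exact hs.off e he
    · rcases List.mem_cons.1 hy with rfl | hy
      · exact ⟨mem_insert_self _ _,
          ((Nat.le_mul_of_pos_right _ (h1 p hp)).trans (hs.small p).le).trans hθ⟩
      · exact hs.rep y hy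
    · rw [Arr.get_set]; split_ifs with e1
      · rfl
      · refine hs.off e fun e2 => he ?_
        exact mem_erase.2 ⟨e1, (mem_insert.1 e2).resolve_left e1⟩
    · simp only [val, rsum_cons, Arr.get_set]
      by_cases e1 : p = e
      · subst e1; simp
      · rw [if_neg (Ne.symm e1), if_neg e1]; ring
    · have h2 := om_set G.ed s.1 (hU hp) 0
      simp only [Int.natAbs_zero, zero_mul, add_zero] at h2
      change (wt + cc) * om G.U G.ed (s.1.set p 0).get + θ * cc * (s.2.length + 1) +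
        wt * ((s.1.get p).natAbs * (G.ed p).l + rw G.ed s.2) ≤
        (wt + cc) * om G.U G.ed s.1.get + θ * cc * s.2.length + wt * rw G.ed s.2 + θ * cc
      rw [← h2]
      nlinarith [Nat.zero_le (cc * ((s.1.get p).natAbs * (G.ed p).l))]
  · exact ⟨hs, fun e he => hs.off e he, fun _ => rfl, Nat.le_add_right _ _⟩

/-- the state before an update, seen in the larger graph -/
theorem PS.both {θ rp : ℕ} {G : Gr} {o : Op} (ho : G.ok o) {own : Arr ℤ} (h : PS θ 0 G (own, [])) :
    PS θ rp (G.both o) (own, []) ∧ om (G.both o).U (G.both o).ed own.get = om G.U G.ed own.get := by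
  obtain ⟨p, _ | d⟩ := o
  · exact ⟨⟨h.small, fun e he => h.off e fun e1 => he (mem_insert_of_mem e1), fun _ hx => nomatch hx⟩,
      rfl⟩
  · have hp : own.get p = 0 := h.off p ho
    have h0 : 0 < θ := (Nat.zero_le _).trans_lt (h.small 0)
    have key : ∀ e, (own.get e).natAbs * (Function.update G.ed p d e).l =
        (own.get e).natAbs * (G.ed e).l := fun e => by
      by_cases e1 : e = p
      · simp [e1, hp]
      · rw [Function.update_of_ne e1]
    refine ⟨⟨fun e => (key e).trans_lt (h.small e),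
      fun e he => h.off e fun e1 => he (mem_insert_of_mem e1), fun _ hx => nomatch hx⟩, ?_⟩
    change ∑ e ∈ insert p G.U, (own.get e).natAbs * (Function.update G.ed p d e).l = _
    simp only [key]
    by_cases e1 : p ∈ G.U
    · rw [insert_eq_of_mem e1]; rfl
    · rw [sum_insert e1, hp]; simp [om]

end Crest.Agent.N325.Tw
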