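import Crest.Agent.N325.Tw.Old

/-! # Row 325 (helper64): one level of the tower meets the specification -/

set_option autoImplicit false
open Finset

namespace Crest.Agent.N325.Tw

variable {S P T : Type} {g : Gl} {θ κ Z : ℕ} {low : Cmd × T → R (T × Rep × Bool)}
  {σ : Stage S P} {p : P} {sc : SC} {I : S → Gr → Gr → (ℕ → Wk) → ℕ → Prop} {Φ rc : S → ℕ}
  {k' k : TC} {Sh' : T → Prop} {I' : T → Gr → (ℕ → ℤ) → Prop} {Ψ' : T → ℕ}

theorem Gr.Ok.one {c : Bd} {G : Gr} (h : G.Ok c) : ∀ e ∈ G.E, 1 ≤ (G.ed e).l :=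
  fun e he => (h.2.2 e he).2.2.2.1

theorem val_nil (own : Arr ℤ) (e : ℕ) : val (own, []) e = own.get e := by simp [val]

theorem sp_updL (St : StageSpec g σ p sc I Φ rc) (L : TowerSpec g θ κ low k' Sh' I' Ψ')
    (F : Fit g.X θ κ sc Z k' k) {v : Lv S P} {t : T} {G : Gr} {f : ℕ → ℤ} (o : Op)
    (h : LI θ p sc I rc I' (v, t) G f) (ho : G.ok o) (hG : G.Ok sc.c) (hG' : (G.app o).Ok sc.c) :
    Sp g (updL low θ σ o v t) fun r u => ∃ f', LI θ p sc I rc I' r.1 (G.app o) f' ∧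
      RepOk (insert o.1 G.E) k.rp r.2.1 ∧
      (∀ e ∈ insert o.1 G.E, (if e ∈ (G.app o).E then f' e else 0) + rsum r.2.1 e =
        if e ∈ G.E then f e else 0) ∧
      θ * u + LΨ θ Z k' k Φ rc Ψ' r.1 + θ * k.cc * r.2.1.length + k.wt * rw (G.app o).ed r.2.1 ≤
        LΨ θ Z k' k Φ rc Ψ' (v, t) + θ * k.AU := by
  obtain ⟨H, fl, c, hs, hf⟩ := LI.core.1 h
  dsimp only at c hs hf
  have hT := c.tab.app ho hG.1
  have hE : (G.app o).E ⊆ (G.both o).E := G.app_E_sub o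
  have h1 : ∀ e ∈ (G.both o).E, 1 ≤ ((G.both o).ed e).l := fun e he => by
    by_cases e1 : e ∈ G.E
    · change 1 ≤ ((G.app o).ed e).l
      rw [Gr.app_ed ho e1]; exact hG.one e e1
    · obtain ⟨q, _ | d⟩ := o
      · exact absurd ((mem_insert.1 he).elim (fun e2 => e2 ▸ ho) id) e1
      · exact hG'.one e he
  have C : Ctx g θ k.rp k' k.wt k.cc sc.K (G.both o) (tab o v).ed :=
    F.ctx hT.ed (Gr.ins_sub ho hG.1) h1
  obtain ⟨hs1, hom⟩ := hs.both (rp := k.rp) ho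
  have R0 := St.rel c.st
  have W : WI θ k.rp sc.K k'.c I' (G.both o) ((v.own, []), v.wk, t) H fl :=
    ⟨c.low, hs1, fun q hq => (R0.wok q hq).mono (subset_insert _ _) fun e he => Gr.app_ed ho he,
      F.c' ▸ c.ok⟩
  unfold updL
  refine (St.upd o c.st c.cnt ho hG hG').bind ?_
  rintro u t1 ⟨a1, a2, a3, a4⟩
  have hc := c.card
  have hm : sc.RU * (v.cnt + 1) ≤ sc.RU * sc.lim := Nat.mul_le_mul_left _ c.cnt
  have hm' := F.m'
  rw [mul_add, mul_one] at hm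
  refine (sp_ops L C W (l := u.2) (by rw [F.c']; exact a1.mono hE rfl) (by rw [F.c']; omega)).bind ?_
  rintro s t2 ⟨fl1, b1, b2, b3, b4, b5⟩
  have e0 : (tab o v).cnt = v.cnt ∧ (tab o v).p = v.p ∧ (tab o v).lim = v.lim := by
    obtain ⟨q, _ | d⟩ := o <;> exact ⟨rfl, rfl, rfl⟩
  have c1 : Core p sc I rc I' { tab o v with st := u.1, wk := s.2.1 } s.2.2 ((tab o v).cnt + 1)
      (G.app o) (apps H u.2) fl1 :=
    ⟨hT.of_eq rfl rfl rfl, e0.2.1.trans c.p, e0.2.2.trans c.lim, e0.1 ▸ c.cnt,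
      by change I u.1 _ _ s.2.1.get _; rw [b2, e0.1]; exact a2, b1.low, F.c' ▸ b1.ok,
      by change _ + rc u.1 ≤ _; rw [e0.1, mul_add, mul_one]; omega⟩
  refine (sp_older St L F c1 hG' hE rfl C b1.ps).bind ?_
  rintro r t3 ⟨H2, fl2, d1, d2, d3, d4⟩
  obtain ⟨g1, g2, g3, g4⟩ := fin1_spec (wt := k.wt) (cc := k.cc) ho hG.1 hG.one
    ((Nat.le_add_right _ _).trans F.rp) d2
  have R2 := St.rel d1.st
  refine ⟨fun e => (fin1 o (r.1.1.own, r.2)).1.get e + pf H2.E r.1.1.wk.get fl2 e,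
    LI.core.2 ⟨H2, fl2, ⟨d1.tab.of_eq rfl rfl rfl, d1.p, d1.lim, d1.cnt, d1.st, d1.low, d1.ok,
      d1.card⟩, ⟨g1.small, g2, fun _ hx => nomatch hx⟩, fun _ _ => rfl⟩, g1.rep, fun e he => ?_, ?_⟩
  · have e1 : (if e ∈ G.E then f e else 0) = v.own.get e + pf H.E v.wk.get fl e := by
      split_ifs with e2
      · exact hf e e2
      · rw [hs.off e e2, pf, sum_eq_zero, add_zero]
        exact fun q hq => by
          rw [scnt_eq_zero fun x hx e3 => e2 (by rw [← e3]; exact (R0.wok q hq).1 x hx), mul_zero]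
    have e2 := b4 e
    have e3 := d3 e
    have e4 := g3 e
    simp only [tot, val_nil] at e2
    change _ = val s.1 e + pf (apps H u.2).E s.2.1.get fl1 e at e3
    rw [e1, ← e2, ← e3, ← e4]
    change (if e ∈ (G.app o).E then (fin1 o (r.1.1.own, r.2)).1.get e + pf H2.E r.1.1.wk.get fl2 e
      else 0) + rsum (fin1 o (r.1.1.own, r.2)).2 e = _
    unfold val
    split_ifs with e5
    · ring
    · rw [g2 e e5, pf, sum_eq_zero, add_zero]
      exact fun q hq => by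
        rw [scnt_eq_zero fun x hx e6 => e5 (by rw [← e6]; exact (R2.wok q hq).1 x hx), mul_zero]
  · have e1 := LΨ_eq (θ := θ) (Z := Z) (k' := k') (k := k) (Φ := Φ) (rc := rc) (Ψ' := Ψ')
      (v := { r.1.1 with own := (fin1 o (r.1.1.own, r.2)).1 }) (t := r.1.2) (B := G.both o)
      (d1.tab.of_eq rfl rfl rfl) rfl rfl (fin1 o (r.1.1.own, r.2)).2
    have e2 := LΨ_eq (θ := θ) (Z := Z) (k' := k') (k := k) (Φ := Φ) (rc := rc) (Ψ' := Ψ') (t := t)
      (B := G) c.tab rfl rfl []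
    have e3 : pm θ k.wt k.cc (G.both o) (v.own, []) = pm θ k.wt k.cc G (v.own, []) := by
      simp only [pm, hom, rw_nil]
    have e4 : (u.2.length + rc u.1) * (k'.AU + 3) ≤ (rc v.st + sc.RU) * (k'.AU + 3) :=
      Nat.mul_le_mul_right _ a3
    have e5 : t1 + Φ u.1 + rc u.1 * (k'.AU + 3) + (v.cnt + 1) * Z + (u.2.length * (k'.AU + 3) + 1) +
        k.cc ≤ Φ v.st + rc v.st * (k'.AU + 3) + v.cnt * Z + k.AU := by
      have := F.AU; rw [add_mul, add_mul] at e4; rw [add_mul, one_mul]; omega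
    have e6 := Nat.mul_le_mul_left θ e5
    change θ * t3 + _ + _ ≤ _ + Pot θ Z k' Φ rc Ψ' u.1 ((tab o v).cnt + 1) s.2.2 at d4
    rw [e0.1] at d4
    change θ * t2 + _ + _ ≤ Ψ' t + pm θ k.wt k.cc (G.both o) (v.own, []) + _ at b5
    change _ = Pot θ Z k' Φ rc Ψ' r.1.1.st r.1.1.cnt r.1.2 +
      pm θ k.wt k.cc (G.both o) (fin1 o (r.1.1.own, r.2)) at e1
    change θ * (t1 + (t2 + (t3 + 0))) + LΨ θ Z k' k Φ rc Ψ'
      ({ r.1.1 with own := (fin1 o (r.1.1.own, r.2)).1 }, r.1.2) +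
      θ * k.cc * (fin1 o (r.1.1.own, r.2)).2.length +
      k.wt * rw (G.app o).ed (fin1 o (r.1.1.own, r.2)).2 ≤ _
    simp only [List.length_nil, rw_nil, mul_zero, add_zero] at e2
    unfold Pot at d4 e1 e2
    simp only [mul_add, add_zero, mul_one] at e1 e2 e6 d4 b5 ⊢
    omega

theorem sp_again (St : StageSpec g σ p sc I Φ rc) (L : TowerSpec g θ κ low k' Sh' I' Ψ')
    (F : Fit g.X θ κ sc Z k' k) {v : Lv S P} {t : T} {s : So} {G H : Gr} {fl : ℕ → ℤ} {l : List Ow}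
    (hT : Tab v G) (hp : v.p = p) (hl : v.lim = sc.lim) (hc : v.cnt < sc.lim) (hG : G.Ok sc.c)
    (W : WI θ k.rp sc.K k'.c I' G (s, v.wk, t) H fl) (ho : Oks sc.K sc.c' G H l)
    (hI : I v.st G (apps H l) (wks v.wk.get l) (v.cnt + 1))
    (hm : H.U.card + l.length + rc v.st ≤ sc.RB + sc.RU * (v.cnt + 1))
    (hn : ¬Flat (apps H l) sc.th') :
    Sp g (again low θ σ v l t s) fun r u => ∃ H' fl' c, r.2.2 = true ∧ Good k.ψ κ G c ∧
      Core p sc I rc I' r.1.1 r.1.2 r.1.1.cnt G H' fl' ∧ PS θ k.rp G (r.1.1.own, r.2.1) ∧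
      (∀ e, val (r.1.1.own, r.2.1) e + pf H'.E r.1.1.wk.get fl' e =
        val s e + pf H.E v.wk.get fl e + c e) ∧
      θ * u + Pot θ Z k' Φ rc Ψ' r.1.1.st r.1.1.cnt r.1.2 + pm θ k.wt k.cc G (r.1.1.own, r.2.1) ≤
        pm θ k.wt k.cc G s + Pot θ Z k' Φ rc Ψ' v.st (v.cnt + 1) t +
          θ * (l.length * (k'.AU + 3) + k'.AS + 3) := by
  have C : Ctx g θ k.rp k' k.wt k.cc sc.K G v.ed := F.ctx hT.ed hG.1 hG.one
  have hm1 : sc.RU * (v.cnt + 1) ≤ sc.RU * sc.lim := Nat.mul_le_mul_left _ hc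
  have hm' := F.m'
  unfold again
  refine (sp_ops L C W (l := l) (F.c' ▸ ho) (by rw [F.c']; omega)).bind ?_
  rintro u t1 ⟨fl1, b1, b2, b3, b4, b5⟩
  have hI' : I v.st G (apps H l) u.2.1.get (v.cnt + 1) := by rw [b2]; exact hI
  have R1 := St.rel hI'
  refine (sp_down C b1.wok b1.ps (Y := Ψ') (A := Ψ' u.2.2 + θ * k'.AS)
    (Q := fun r => ∃ f' c, I' r.1 (apps H l) f' ∧ Good k'.ψ κ (apps H l) c ∧
      ∀ e ∈ (apps H l).E, f' e + rsum r.2.1 e = fl1 e + c e)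
    ((L.step o0 b1.low b1.ok).mono fun r u ⟨f', c, a1, a2, a3, a4, a5⟩ => ⟨⟨f', c, a1, ?_, a3⟩,
      a2, a5⟩)).bind ?_
  · split_ifs at a4
    · exact a4
    · exact absurd (F.th' ▸ a4.1) hn
  rintro d t2 ⟨r, ⟨f2, c, a1, a2, a3⟩, a4, a5, a6⟩
  have c1 : Core p sc I rc I' { v with wk := u.2.1 } d.2.1 (v.cnt + 1) G (apps H l) f2 :=
    ⟨hT.of_eq rfl rfl rfl, hp, hl, hc, hI', a1, F.c' ▸ b1.ok, by change _ + rc v.st ≤ _; omega⟩
  refine (sp_older St L F c1 hG subset_rfl rfl C a4).bind ?_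
  rintro x t3 ⟨H3, f3, d1, d2, d3, d4⟩
  refine ⟨H3, f3, pf (apps H l).E u.2.1.get c, rfl, ?_, d1, d2, fun e => ?_, ?_⟩
  · rw [F.ψ, ← F.ψ']; exact R1.good a2
  · have e2 := b4 e
    simp only [tot] at e2
    refine (d3 e).trans ?_
    change val d.1 e + pf (apps H l).E u.2.1.get f2 e = _
    rw [a5 e, ← e2, add_assoc, add_assoc]
    congr 1
    simp only [pf, ← sum_add_distrib]
    exact sum_congr rfl fun q hq => by rw [← add_mul, ← add_mul, add_comm, a3 q hq]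
  · change θ * t3 + _ + _ ≤ _ + Pot θ Z k' Φ rc Ψ' v.st (v.cnt + 1) d.2.1 at d4
    change θ * t1 + _ + _ ≤ Ψ' t + pm θ k.wt k.cc G s + _ at b5
    change θ * (t1 + (t2 + (t3 + 0))) + Pot θ Z k' Φ rc Ψ' x.1.1.st x.1.1.cnt x.1.2 +
      pm θ k.wt k.cc G (x.1.1.own, x.2) ≤ _
    unfold Pot at d4 ⊢
    simp only [mul_add, add_zero, mul_one] at d4 b5 ⊢
    omega

end Crest.Agent.N325.Tw
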