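import Crest.Agent.N325.Tw.Ops

/-! # Row 325 (helper64): rebuilding a level -/

set_option autoImplicit false
open Finset

namespace Crest.Agent.N325.Tw

variable {S P T : Type} {g : Gl} {θ κ Z : ℕ} {low : Cmd × T → R (T × Rep × Bool)}
  {σ : Stage S P} {p : P} {sc : SC} {I : S → Gr → Gr → (ℕ → Wk) → ℕ → Prop} {Φ rc : S → ℕ}
  {k' k : TC} {Sh' : T → Prop} {I' : T → Gr → (ℕ → ℤ) → Prop} {Ψ' : T → ℕ}

theorem Tab.of_eq {v v' : Lv S P} {G : Gr} (h : Tab v G) (e1 : v'.ed = v.ed) (e2 : v'.ids = v.ids)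
    (e3 : v'.al = v.al) : Tab v' G :=
  ⟨e1 ▸ h.ed, e2 ▸ h.nd, e2 ▸ h.ids, e3 ▸ h.al2, e3 ▸ h.al0⟩

/-- the part of the invariant that does not concern the flow; the stage has age `n` -/
structure Core (p : P) (sc : SC) (I : S → Gr → Gr → (ℕ → Wk) → ℕ → Prop) (rc : S → ℕ)
    (I' : T → Gr → (ℕ → ℤ) → Prop) (v : Lv S P) (t : T) (n : ℕ) (G H : Gr) (fl : ℕ → ℤ) :
    Prop where
  tab : Tab v G
  p : v.p = p
  lim : v.lim = sc.lim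
  cnt : v.cnt < sc.lim
  st : I v.st G H v.wk.get n
  low : I' t H fl
  ok : H.Ok sc.c'
  card : H.U.card + rc v.st ≤ sc.RB + sc.RU * n

/-- the part of the potential that does not concern the flow -/
def Pot (θ Z : ℕ) (k' : TC) (Φ rc : S → ℕ) (Ψ' : T → ℕ) (s : S) (n : ℕ) (t : T) : ℕ :=
  θ * (Φ s + rc s * (k'.AU + 3) + n * Z) + Ψ' t

theorem Fit.ctx (F : Fit g.X θ κ sc Z k' k) {B : Gr} {ed : Arr Ed} (h1 : ed.get = B.ed)
    (h2 : B.E ⊆ B.U) (h3 : ∀ e ∈ B.E, 1 ≤ (B.ed e).l) : Ctx g θ k.rp k' k.wt k.cc sc.K B ed :=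
  ⟨h1, h2, h3, F.rp, F.rpX, F.wt, F.cc⟩

theorem sp_fresh (St : StageSpec g σ p sc I Φ rc) (L : TowerSpec g θ κ low k' Sh' I' Ψ')
    (F : Fit g.X θ κ sc Z k' k) {v : Lv S P} {t : T} {s : So} {G B : Gr} (hT : Tab v G)
    (hp : v.p = p) (hl : v.lim = sc.lim) (hG : G.Ok sc.c) (hE : G.E ⊆ B.E) (he : B.ed = G.ed)
    (C : Ctx g θ k.rp k' k.wt k.cc sc.K B v.ed) (ht : Sh' t) (hs : PS θ k.rp B s) :
    Sp g (fresh low θ σ v t s) fun r u => ∃ H fl, Core p sc I rc I' r.1.1 r.1.2 r.1.1.cnt G H fl ∧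
      PS θ k.rp B (r.1.1.own, r.2) ∧
      (∀ e, val (r.1.1.own, r.2) e + pf H.E r.1.1.wk.get fl e = val s e) ∧
      θ * u + Pot θ Z k' Φ rc Ψ' r.1.1.st r.1.1.cnt r.1.2 + pm θ k.wt k.cc B (r.1.1.own, r.2) ≤
        pm θ k.wt k.cc B s + θ * k.AR := by
  unfold fresh
  rw [sp_bind, sp_call]
  refine (L.reset o0 ht).mono ?_
  rintro r u1 ⟨a1, -, a3⟩
  refine (sp_enum hT hG.1).bind ?_
  rintro l u2 ⟨b1, b2⟩
  rw [hp]
  refine (St.build G l v.wk.get hG b2).bind ?_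
  rintro b u3 ⟨c1, c2, c3, c4⟩
  have hm := F.m'
  have W : WI θ k.rp sc.K k'.c I' B (s, v.wk, r.1) Gr.emp fun _ => 0 :=
    ⟨a1, hs, fun _ h => absurd h (notMem_empty _), Gr.emp_ok _⟩
  refine (sp_ops L C W (l := b.2) (by rw [F.c']; exact c1.mono hE he)
    (by rw [F.c']; change 0 + _ ≤ _; omega)).bind ?_
  rintro s' u4 ⟨fl, d1, d2, d3, d4, d5⟩
  refine ⟨_, fl, ⟨hT.of_eq rfl rfl rfl, rfl, hl, F.lim, by change I b.1 G _ s'.2.1.get 0; rw [d2]; exact c2,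
    d1.low, F.c' ▸ d1.ok, ?_⟩, d1.ps, fun e => ?_, ?_⟩
  · change _ + rc b.1 ≤ sc.RB + sc.RU * 0
    have : Gr.emp.U.card = 0 := rfl
    omega
  · simpa [tot, pf, Gr.emp] using d4 e
  · change θ * (1 + u1 + (u2 + (u3 + (u4 + 0)))) + (θ * (Φ b.1 + rc b.1 * (k'.AU + 3) + 0 * Z) +
      Ψ' s'.2.2) + pm θ k.wt k.cc B s'.1 ≤ _
    change θ * u4 + Ψ' s'.2.2 + pm θ k.wt k.cc B s'.1 ≤ Ψ' r.1 + pm θ k.wt k.cc B s + _ at d5
    have e1 : (b.2.length + rc b.1) * (k'.AU + 3) ≤ sc.RB * (k'.AU + 3) := Nat.mul_le_mul_right _ c3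
    have e2 : 1 + u2 + u3 + Φ b.1 + rc b.1 * (k'.AU + 3) + (b.2.length * (k'.AU + 3) + 1) + k'.AR ≤
        k.AR := by
      have := F.AR; have := hG.2.1; rw [add_mul] at e1; omega
    have e3 := Nat.mul_le_mul_left θ e2
    simp only [mul_add, add_zero, zero_mul, mul_one] at e3 d5 ⊢
    omega

theorem sp_older (St : StageSpec g σ p sc I Φ rc) (L : TowerSpec g θ κ low k' Sh' I' Ψ')
    (F : Fit g.X θ κ sc Z k' k) {v : Lv S P} {t : T} {s : So} {G B H : Gr} {fl : ℕ → ℤ}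
    (h : Core p sc I rc I' v t (v.cnt + 1) G H fl) (hG : G.Ok sc.c) (hE : G.E ⊆ B.E)
    (he : B.ed = G.ed) (C : Ctx g θ k.rp k' k.wt k.cc sc.K B v.ed) (hs : PS θ k.rp B s) :
    Sp g (older low θ σ v t s) fun r u => ∃ H' fl',
      Core p sc I rc I' r.1.1 r.1.2 r.1.1.cnt G H' fl' ∧ PS θ k.rp B (r.1.1.own, r.2) ∧
      (∀ e, val (r.1.1.own, r.2) e + pf H'.E r.1.1.wk.get fl' e = val s e + pf H.E v.wk.get fl e) ∧
      θ * u + Pot θ Z k' Φ rc Ψ' r.1.1.st r.1.1.cnt r.1.2 + pm θ k.wt k.cc B (r.1.1.own, r.2) ≤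
        pm θ k.wt k.cc B s + Pot θ Z k' Φ rc Ψ' v.st (v.cnt + 1) t := by
  unfold older
  rw [sp_ite]
  refine ⟨fun hc => ⟨H, fl, ⟨h.tab.of_eq rfl rfl rfl, h.p, h.lim, h.lim ▸ hc, h.st, h.low, h.ok,
    h.card⟩, hs, fun _ => rfl, ?_⟩, fun hc => ?_⟩
  · change θ * 0 + Pot θ Z k' Φ rc Ψ' v.st (v.cnt + 1) t + pm θ k.wt k.cc B s ≤ _
    omega
  · have hF : ∀ q ∈ H.E, WOk sc.K B (H.ed q).l (v.wk.get q) := fun q hq =>
      ((St.rel h.st).wok q hq).mono hE fun e _ => by rw [he]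
    refine (sp_down C hF hs (Y := fun _ => 0) (A := Ψ' t + θ * k'.AD)
      (Q := fun r => ∀ e ∈ H.E, rsum r.2.1 e = fl e)
      ((L.dump o0 h.low (F.c' ▸ h.ok)).mono fun r u ⟨a1, a2, a3⟩ => ⟨a2, a1, by omega⟩)).bind ?_
    rintro d u ⟨r, a1, a2, a3, a4⟩
    refine (sp_fresh St L F h.tab h.p h.lim hG hE he C (L.sh h.low) a2).mono ?_
    rintro x u' ⟨H', fl', b1, b2, b3, b4⟩
    refine ⟨H', fl', b1, b2, fun e => ?_, ?_⟩
    · rw [b3 e, a3 e]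
      congr 1
      exact sum_congr rfl fun q hq => by rw [a1 q hq]
    · have e1 : sc.lim * Z ≤ (v.cnt + 1) * Z := Nat.mul_le_mul_right _ (by rw [← h.lim]; omega)
      have e2 := Nat.mul_le_mul_left θ (F.sav.trans e1)
      unfold Pot at b4 ⊢
      simp only [mul_add] at e2 b4 ⊢
      omega

theorem LI.core {x : Lv S P × T} {G : Gr} {f : ℕ → ℤ} : LI θ p sc I rc I' x G f ↔
    ∃ H fl, Core p sc I rc I' x.1 x.2 x.1.cnt G H fl ∧ PS θ 0 G (x.1.own, []) ∧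
      ∀ e ∈ G.E, f e = x.1.own.get e + pf H.E x.1.wk.get fl e :=
  ⟨fun ⟨H, fl, a1, a2, a3, a4, a5, a6, a7, a8, a9, a10⟩ =>
    ⟨H, fl, ⟨a1, a2, a3, a4, a5, a6, a7, a8⟩, a9, a10⟩,
   fun ⟨H, fl, ⟨a1, a2, a3, a4, a5, a6, a7, a8⟩, a9, a10⟩ =>
    ⟨H, fl, a1, a2, a3, a4, a5, a6, a7, a8, a9, a10⟩⟩

theorem LΨ_eq {v : Lv S P} {t : T} {G B : Gr} (h : Tab v G) (hU : B.U = G.U) (he : B.ed = G.ed)
    (r : Rep) : LΨ θ Z k' k Φ rc Ψ' (v, t) + θ * k.cc * r.length + k.wt * rw G.ed r =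
      Pot θ Z k' Φ rc Ψ' v.st v.cnt t + pm θ k.wt k.cc B (v.own, r) := by
  simp only [LΨ, Lv.om, Pot, pm, h.ed, h.ids, hU, he]; omega

theorem PS.nil {rp : ℕ} {G : Gr} {own : Arr ℤ} {r : Rep} (h : PS θ rp G (own, r)) (rp' : ℕ) :
    PS θ rp' G (own, []) := ⟨h.small, h.off, fun _ hx => nomatch hx⟩

end Crest.Agent.N325.Tw
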