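import Crest.Agent.N325.Tw.Fit

/-! # Row 325 (helper64): commands sent to the lower levels -/

set_option autoImplicit false
open Finset

namespace Crest.Agent.N325.Tw

variable {S P T : Type} {g : Gl} {θ κ : ℕ} {low : Cmd × T → R (T × Rep × Bool)}

theorem Oks.mono {K : ℕ} {c' : Bd} {G B : Gr} (hE : G.E ⊆ B.E) (he : B.ed = G.ed) {H : Gr}
    {l : List Ow} (h : Oks K c' G H l) : Oks K c' B H l := by
  induction l generalizing H with
  | nil => trivial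
  | cons o l ih =>
    exact ⟨h.1, fun x hx => ⟨(h.2.1 x hx).1, (h.2.1 x hx).2.mono hE fun e _ => by rw [he]⟩, ih h.2.2⟩

theorem setWk_get (o : Ow) (wk : Arr Wk) : (setWk o wk).get = o.wk wk.get := by
  obtain ⟨p, _ | x⟩ := o
  · rfl
  · exact Arr.set_get _ _ _

theorem Gr.Ok.app {c : Bd} {H : Gr} (h : H.Ok c) {o : Ow} (hm : H.U.card + 1 ≤ c.m)
    (hx : ∀ x ∈ o.2, c.ed o.1 x.1) : (H.app o.op).Ok c := by
  obtain ⟨p, _ | x⟩ := o
  · exact ⟨(erase_subset _ _).trans h.1, h.2.1, fun e he => h.2.2 e (mem_of_mem_erase he)⟩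
  · refine ⟨insert_subset_insert _ h.1, (card_insert_le _ _).trans hm, fun e he => ?_⟩
    change c.ed e (Function.update H.ed p x.1 e)
    by_cases e1 : e = p
    · rw [e1, Function.update_self]; exact hx x rfl
    · rw [Function.update_of_ne e1]; exact h.2.2 e ((mem_insert.1 he).resolve_left e1)

theorem Gr.emp_ok (c : Bd) : Gr.emp.Ok c :=
  ⟨subset_rfl, Nat.zero_le _, fun _ he => absurd he (notMem_empty _)⟩

/-- the data shared by the proofs about one level -/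
structure Ctx (g : Gl) (θ rp : ℕ) (k' : TC) (wt cc K : ℕ) (B : Gr) (ed : Arr Ed) : Prop where
  ed : ed.get = B.ed
  sub : B.E ⊆ B.U
  one : ∀ e ∈ B.E, 1 ≤ (B.ed e).l
  rp1 : θ + k'.rp ≤ rp
  rpX : rp ≤ g.X
  wt : wt + cc ≤ k'.wt
  cc : K + 2 ≤ k'.cc

variable {rp wt cc K : ℕ} {k' : TC} {B : Gr} {ed : Arr Ed}

theorem sp_down (C : Ctx g θ rp k' wt cc K B ed) {F : Finset ℕ} {ed' : ℕ → Ed} {wk : Arr Wk}
    (hF : ∀ p ∈ F, WOk K B (ed' p).l (wk.get p)) {c : Cmd} {t : T} {s : So} (hs : PS θ rp B s)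
    {Q : T × Rep × Bool → Prop} {Y : T → ℕ} {A : ℕ}
    (h : Sp g (low (c, t)) fun r u => Q r ∧ RepOk F k'.rp r.2.1 ∧
      θ * u + Y r.1 + θ * k'.cc * r.2.1.length + k'.wt * rw ed' r.2.1 ≤ A) :
    Sp g (down low θ ed wk c t s) fun d u => ∃ r, Q (d.2.1, r, d.2.2) ∧ PS θ rp B d.1 ∧
      (∀ e, val d.1 e = val s e + pf F wk.get (rsum r) e) ∧
      θ * u + Y d.2.1 + pm θ wt cc B d.1 ≤ A + pm θ wt cc B s + θ * 2 := by
  unfold down
  rw [sp_bind, sp_call]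
  refine h.mono ?_
  rintro r u ⟨a1, a2, a3⟩
  refine (sp_pushR (wt := wt) (cc := cc) C.ed C.sub C.one C.rp1 C.rpX hF a2 hs).bind ?_
  rintro s' u' ⟨b0, b1, b2, b3⟩
  refine ⟨r.2.1, a1, b1, b2, ?_⟩
  have e1 : (wt + cc) * rw ed' r.2.1 ≤ k'.wt * rw ed' r.2.1 := Nat.mul_le_mul_right _ C.wt
  have e2 : θ * u' ≤ θ * k'.cc * r.2.1.length + θ := by
    calc θ * u' ≤ θ * (r.2.1.length * k'.cc + 1) :=
          Nat.mul_le_mul_left _ (b0.trans (Nat.add_le_add_right (Nat.mul_le_mul_left _ C.cc) _))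
      _ = _ := by ring
  have e3 : θ * (1 + u + (u' + 0)) = θ + θ * u + θ * u' := by ring
  change θ * (1 + u + (u' + 0)) + Y r.1 + pm θ wt cc B s' ≤ _
  omega

variable {Sh' : T → Prop} {I' : T → Gr → (ℕ → ℤ) → Prop} {Ψ' : T → ℕ}

/-- invariant while the next graph is being changed -/
structure WI (θ rp K : ℕ) (c' : Bd) (I' : T → Gr → (ℕ → ℤ) → Prop) (B : Gr) (s : So × Arr Wk × T)
    (H : Gr) (fl : ℕ → ℤ) : Prop where
  low : I' s.2.2 H fl
  ps : PS θ rp B s.1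
  wok : ∀ p ∈ H.E, WOk K B (H.ed p).l (s.2.1.get p)
  ok : H.Ok c'

/-- all the flow that `e` has received -/
def tot (s : So × Arr Wk × T) (H : Gr) (fl : ℕ → ℤ) (e : ℕ) : ℤ :=
  val s.1 e + pf H.E s.2.1.get fl e

theorem pf_upd {H : Gr} {o : Ow} (ho : H.ok o.op) (wk : ℕ → Wk) {f f' : ℕ → ℤ} {r : Rep}
    (h : ∀ p ∈ insert o.1 H.E, (if p ∈ (H.app o.op).E then f' p else 0) + rsum r p =
      if p ∈ H.E then f p else 0) (e : ℕ) :
    pf (insert o.1 H.E) (o.wk wk) (rsum r) e + pf (H.app o.op).E (o.wk wk) f' e = pf H.E wk f e := by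
  have e1 : pf (H.app o.op).E (o.wk wk) f' e =
      ∑ p ∈ insert o.1 H.E, (if p ∈ (H.app o.op).E then f' p else 0) * scnt (o.wk wk p) e := by
    simp only [ite_mul, zero_mul]
    rw [← sum_filter, filter_mem_eq_inter, inter_eq_right.2 (show _ ⊆ insert o.1 H.E from H.app_E_sub o.op)]; rfl
  have e2 : pf H.E wk f e =
      ∑ p ∈ insert o.1 H.E, (if p ∈ H.E then f p else 0) * scnt (o.wk wk p) e := by
    simp only [ite_mul, zero_mul]
    rw [← sum_filter, filter_mem_eq_inter, inter_eq_right.2 (subset_insert _ _)]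
    refine sum_congr rfl fun p hp => ?_
    obtain ⟨q, _ | x⟩ := o
    · rfl
    · have : p ≠ q := fun e1 => ho (by rw [← show p = q from e1]; exact hp)
      simp only [Ow.wk, Function.update_of_ne this]
  rw [e1, e2, pf, ← sum_add_distrib]
  exact sum_congr rfl fun p hp => by rw [← h p hp]; ring

theorem sp_opR (L : TowerSpec g θ κ low k' Sh' I' Ψ') (C : Ctx g θ rp k' wt cc K B ed)
    {s : So × Arr Wk × T} {H : Gr} {fl : ℕ → ℤ} (h : WI θ rp K k'.c I' B s H fl) {o : Ow}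
    (ho : H.ok o.op) (hx : ∀ x ∈ o.2, k'.c.ed o.1 x.1 ∧ WOk K B x.1.l x.2)
    (hm : H.U.card + 1 ≤ k'.c.m) :
    Sp g (opR low θ ed o s) fun s' u => ∃ fl', WI θ rp K k'.c I' B s' (H.app o.op) fl' ∧
      s'.2.1.get = o.wk s.2.1.get ∧ (∀ e, tot s' (H.app o.op) fl' e = tot s H fl e) ∧
      θ * u + Ψ' s'.2.2 + pm θ wt cc B s'.1 ≤ Ψ' s.2.2 + pm θ wt cc B s.1 + θ * (k'.AU + 2) := by
  have hok := h.ok.app hm fun x hx' => (hx x hx').1
  have hF : ∀ p ∈ insert o.1 H.E, WOk K B ((H.app o.op).ed p).l ((setWk o s.2.1).get p) := by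
    intro p hp
    obtain ⟨q, _ | x⟩ := o
    · exact h.wok p (by rwa [insert_eq_of_mem (show q ∈ H.E from ho)] at hp)
    · change WOk K B (Function.update H.ed q x.1 p).l ((s.2.1.set q x.2).get p)
      by_cases e1 : p = q
      · rw [e1, Function.update_self, Arr.get_set_self]; exact (hx x rfl).2
      · rw [Function.update_of_ne e1, Arr.get_set_ne _ e1]
        exact h.wok p ((mem_insert.1 hp).resolve_left e1)
  unfold opR
  refine (sp_down C hF h.ps (Y := Ψ') (A := Ψ' s.2.2 + θ * k'.AU)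
    (Q := fun r => ∃ f', I' r.1 (H.app o.op) f' ∧ ∀ p ∈ insert o.1 H.E,
      (if p ∈ (H.app o.op).E then f' p else 0) + rsum r.2.1 p = if p ∈ H.E then fl p else 0)
    ((L.upd o.op h.low ho h.ok hok).mono fun r u ⟨f', a1, a2, a3, a4⟩ =>
      ⟨⟨f', a1, a3⟩, a2, a4⟩)).bind ?_
  rintro d u ⟨r, ⟨f', a1, a2⟩, b1, b2, b3⟩
  refine ⟨f', ⟨a1, b1, fun p hp => hF p (H.app_E_sub _ hp), hok⟩, setWk_get _ _, fun e => ?_, ?_⟩
  · change val d.1 e + pf _ (setWk o s.2.1).get f' e = _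
    rw [b2 e, setWk_get, add_assoc, pf_upd ho _ a2]; rfl
  · change θ * (u + 0) + Ψ' d.2.1 + pm θ wt cc B d.1 ≤ _
    rw [add_zero, mul_add]; omega

theorem sp_ops (L : TowerSpec g θ κ low k' Sh' I' Ψ') (C : Ctx g θ rp k' wt cc K B ed)
    {s : So × Arr Wk × T} {H : Gr} {fl : ℕ → ℤ} (h : WI θ rp K k'.c I' B s H fl) {l : List Ow}
    (hl : Oks K k'.c B H l) (hm : H.U.card + l.length ≤ k'.c.m) :
    Sp g (foldL (opR low θ ed) l s) fun s' u => ∃ fl', WI θ rp K k'.c I' B s' (apps H l) fl' ∧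
      s'.2.1.get = wks s.2.1.get l ∧ (apps H l).U.card ≤ H.U.card + l.length ∧
      (∀ e, tot s' (apps H l) fl' e = tot s H fl e) ∧
      θ * u + Ψ' s'.2.2 + pm θ wt cc B s'.1 ≤
        Ψ' s.2.2 + pm θ wt cc B s.1 + θ * (l.length * (k'.AU + 3) + 1) := by
  refine (sp_foldL (fun r s' t => ∃ H' fl', WI θ rp K k'.c I' B s' H' fl' ∧ Oks K k'.c B H' r ∧
      apps H' r = apps H l ∧ wks s'.2.1.get r = wks s.2.1.get l ∧
      H'.U.card + r.length ≤ H.U.card + l.length ∧ (∀ e, tot s' H' fl' e = tot s H fl e) ∧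
      θ * t + Ψ' s'.2.2 + pm θ wt cc B s'.1 + θ * (r.length * (k'.AU + 3)) ≤
        Ψ' s.2.2 + pm θ wt cc B s.1 + θ * (l.length * (k'.AU + 3))) ?_ (t := 0)
      ⟨H, fl, h, hl, rfl, rfl, le_rfl, fun _ => rfl, by simp⟩).mono ?_
  · rintro o r s1 t ⟨H1, f1, a1, a2, a3, a4, a5, a6, a7⟩
    rw [List.length_cons] at a5 a7
    refine (sp_opR L C a1 a2.1 a2.2.1 (by omega)).mono ?_
    rintro s2 u ⟨f2, b1, b2, b3, b4⟩
    have := H1.app_U_card o.op
    refine ⟨_, f2, b1, a2.2.2, a3, by rw [b2]; exact a4, by omega, fun e => (b3 e).trans (a6 e), ?_⟩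
    have e1 : θ * ((r.length + 1) * (k'.AU + 3)) =
        θ * (r.length * (k'.AU + 3)) + θ * (k'.AU + 2) + θ := by ring
    have e2 : θ * (t + 1 + u) = θ * t + θ + θ * u := by ring
    omega
  · rintro s' t ⟨u, rfl, H', fl', a1, -, a3, a4, a5, a6, a7⟩
    obtain rfl : H' = apps H l := a3
    refine ⟨fl', a1, a4, by simpa using a5, a6, ?_⟩
    simp only [List.length_nil, zero_mul, mul_zero, add_zero, zero_add] at a7
    rw [mul_add θ u 1, mul_add θ (l.length * _) 1]; omega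

end Crest.Agent.N325.Tw
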