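import Crest.Agent.N325.Tw.Defs

/-! # Row 325 (helper64): the programs of the tower -/

set_option autoImplicit false

namespace Crest.Agent.N325.Tw

/-- one level: parameters, life, stage, tables of the graph (`al`: 0 unknown, 1 dead, 2 alive),
unreported flow, walks of the edges of the next graph, age -/
structure Lv (S P : Type) where
  p : P
  lim : ℕ
  st : S
  ed : Arr Ed
  al : Arr ℕ
  ids : List ℕ
  own : Arr ℤ
  wk : Arr Wk
  cnt : ℕ

/-- unreported flow and the reports made so far -/
abbrev So := Arr ℤ × Rep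

/-- add `± δ` to one edge, report it when it is large -/
def push1 (θ : ℕ) (ed : Arr Ed) (δ : ℤ) (x : ℕ × Bool) (s : So) : R So := do
  let v ← int (s.1.get x.1 + if x.2 then δ else -δ)
  pure (if θ ≤ v.natAbs * (ed.get x.1).l then (s.1.set x.1 0, (x.1, v) :: s.2)
    else (s.1.set x.1 v, s.2))

/-- hand the reports of the next graph to the edges of their walks -/
def pushR (θ : ℕ) (ed : Arr Ed) (wk : Arr Wk) (r : Rep) (s : So) : R So :=
  foldL (fun x s => foldL (push1 θ ed x.2) (wk.get x.1) s) r s

/-- length and gradient of a walk -/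
def lenG (ed : Arr Ed) (w : Wk) : R (ℕ × ℤ) :=
  foldL (fun x a => do
    let l ← nat (a.1 + (ed.get x.1).l)
    let g ← int (a.2 + if x.2 then (ed.get x.1).g else -(ed.get x.1).g)
    pure (l, g)) w (0, 0)

/-- a step along a closed walk -/
def cyc (θ κ : ℕ) (ed : Arr Ed) (w : Wk) (s : So) : R So := do
  let a ← lenG ed w
  foldL (push1 θ ed (if 0 < a.2 then -((κ / a.1 : ℕ) : ℤ) else ((κ / a.1 : ℕ) : ℤ))) w s

/-- record the walk of an inserted edge -/
def setWk (o : Ow) (wk : Arr Wk) : Arr Wk := Option.casesOn o.2 wk fun x => wk.set o.1 x.2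

/-- report a deleted edge -/
def fin1 (o : Op) (s : So) : So :=
  Option.casesOn o.2 (s.1.set o.1 0, (o.1, s.1.get o.1) :: s.2) fun _ => s

/-- no edge -/
def o0 : Op := (0, none)

section
variable {S P T : Type}

/-- update of the tables -/
def tab (o : Op) (v : Lv S P) : Lv S P :=
  Option.casesOn o.2 { v with al := v.al.set o.1 1 } fun d =>
    { v with ed := v.ed.set o.1 d, al := v.al.set o.1 2,
             ids := if v.al.get o.1 = 0 then o.1 :: v.ids else v.ids }

/-- empty tables -/
def clear (v : Lv S P) : Lv S P :=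
  { v with ed := Arr.cst ⟨0, 0, 0, 0⟩, al := Arr.cst 0, ids := [], own := Arr.cst 0 }

/-- the current edges -/
def enum (v : Lv S P) : R (List (ℕ × Ed)) :=
  foldL (fun e l => pure (if v.al.get e = 2 then (e, v.ed.get e) :: l else l)) v.ids []

/-- report everything -/
def repAll (v : Lv S P) (s : So) : R Rep :=
  foldL (fun e l => pure (if v.al.get e = 2 then (e, s.1.get e) :: l else l)) v.ids s.2

variable (low : Cmd × T → R (T × Rep × Bool)) (θ κ : ℕ)

/-- a command for the lower levels, its reports are handed on -/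
def down (ed : Arr Ed) (wk : Arr Wk) (c : Cmd) (t : T) (s : So) : R (So × T × Bool) := do
  let r ← call low (c, t)
  let s' ← pushR θ ed wk r.2.1 s
  pure (s', r.1, r.2.2)

/-- one update of the next graph -/
def opR (ed : Arr Ed) (o : Ow) (s : So × Arr Wk × T) : R (So × Arr Wk × T) := do
  let r ← down low θ ed (setWk o s.2.1) (0, o.op) s.2.2 s.1
  pure (r.1, setWk o s.2.1, r.2.1)

variable (σ : Stage S P)

/-- build the stage and everything below it anew -/
def fresh (v : Lv S P) (t : T) (s : So) : R ((Lv S P × T) × Rep) := do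
  let r ← call low ((3, o0), t)
  let l ← enum v
  let b ← σ.build v.p l
  let u ← foldL (opR low θ v.ed) b.2 (s, v.wk, r.1)
  pure (({ v with st := b.1, own := u.1.1, wk := u.2.1, cnt := 0 }, u.2.2), u.1.2)

/-- the stage is one update older; rebuild it at the end of its life -/
def older (v : Lv S P) (t : T) (s : So) : R ((Lv S P × T) × Rep) :=
  if v.cnt + 1 < v.lim then pure (({ v with own := s.1, cnt := v.cnt + 1 }, t), s.2) else do
    let d ← down low θ v.ed v.wk (2, o0) t s
    fresh low θ σ v t d.1

/-- update -/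
def updL (o : Op) (v : Lv S P) (t : T) : R ((Lv S P × T) × Rep × Bool) := do
  let u ← σ.upd v.st o
  let s ← foldL (opR low θ (tab o v).ed) u.2 ((v.own, []), v.wk, t)
  let r ← older low θ σ { tab o v with st := u.1, wk := s.2.1 } s.2.2 s.1
  pure (({ r.1.1 with own := (fin1 o (r.1.1.own, r.2)).1 }, r.1.2), (fin1 o (r.1.1.own, r.2)).2, false)

/-- the stage has changed the next graph, which now contains a good cycle -/
def again (v : Lv S P) (l : List Ow) (t : T) (s : So) : R ((Lv S P × T) × Rep × Bool) := do
  let u ← foldL (opR low θ v.ed) l (s, v.wk, t)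
  let d ← down low θ v.ed u.2.1 (1, o0) u.2.2 u.1
  let r ← older low θ σ { v with wk := u.2.1 } d.2.1 d.1
  pure (r.1, r.2, true)

/-- step -/
def stepL (v : Lv S P) (t : T) : R ((Lv S P × T) × Rep × Bool) := do
  let d ← down low θ v.ed v.wk (1, o0) t (v.own, [])
  if d.2.2 then pure (({ v with own := d.1.1 }, d.2.1), d.1.2, true) else do
    let u ← σ.probe v.st
    Option.casesOn u.2.2
      (if u.2.1.isEmpty then pure (({ v with st := u.1, own := d.1.1 }, d.2.1), d.1.2, false)
        else again low θ σ { v with st := u.1 } u.2.1 d.2.1 d.1)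
      fun w => do
        let s ← cyc θ κ v.ed w d.1
        pure (({ v with st := u.1, own := s.1 }, d.2.1), s.2, true)

/-- dump -/
def dumpL (v : Lv S P) (t : T) : R ((Lv S P × T) × Rep × Bool) := do
  let d ← down low θ v.ed v.wk (2, o0) t (v.own, [])
  let r ← repAll v d.1
  pure ((v, t), r, false)

/-- reset -/
def resetL (v : Lv S P) (t : T) : R ((Lv S P × T) × Rep × Bool) := do
  let r ← fresh low θ σ (clear v) t (Arr.cst 0, [])
  pure (r.1, r.2, false)

/-- one level on top of `low` -/
def lvl (x : Cmd × (Lv S P × T)) : R ((Lv S P × T) × Rep × Bool) :=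
  if x.1.1 = 0 then updL low θ σ x.1.2 x.2.1 x.2.2 else
  if x.1.1 = 1 then stepL low θ κ σ x.2.1 x.2.2 else
  if x.1.1 = 2 then dumpL low θ x.2.1 x.2.2 else resetL low θ σ x.2.1 x.2.2

variable (bot : List (ℕ × Ed) → R (Option Wk))

/-- the bottom level -/
def base (x : Cmd × Lv S P) : R (Lv S P × Rep × Bool) :=
  if x.1.1 = 0 then pure ({ tab x.1.2 x.2 with own := (fin1 x.1.2 (x.2.own, [])).1 },
    (fin1 x.1.2 (x.2.own, [])).2, false) else
  if x.1.1 = 1 then do
    let l ← enum x.2
    let u ← bot l
    Option.casesOn u (pure (x.2, [], false)) fun w => do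
      let s ← cyc θ κ x.2.ed w (x.2.own, [])
      pure ({ x.2 with own := s.1 }, s.2, true) else
  if x.1.1 = 2 then do
    let r ← repAll x.2 (x.2.own, [])
    pure (x.2, r, false) else pure (clear x.2, [], false)

/-- the tower of height `n` on a list of `n + 1` levels -/
def tower : ℕ → Cmd × List (Lv S P) → R (List (Lv S P) × Rep × Bool)
  | 0, x => List.casesOn x.2 (pure ([], [], false)) fun v l => do
      let r ← base θ κ bot (x.1, v)
      pure (r.1 :: l, r.2)
  | n + 1, x => List.casesOn x.2 (pure ([], [], false)) fun v l => do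
      let r ← lvl (tower n) θ κ σ (x.1, v, l)
      pure (r.1.1 :: r.1.2, r.2)

end

end Crest.Agent.N325.Tw
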