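import Crest.Agent.N325.Tw.Prog
import Crest.Agent.N325.Tw.Alg

/-! # Row 325 (helper64): handing flow to the edges of a level -/

set_option autoImplicit false
open Finset

namespace Crest.Agent.N325.Tw

/-- weighted unreported flow -/
def om (U : Finset ℕ) (ed : ℕ → Ed) (own : ℕ → ℤ) : ℕ := ∑ e ∈ U, (own e).natAbs * (ed e).l

/-- invariant of the unreported flow and the reports -/
structure PS (θ rp : ℕ) (G : Gr) (s : So) : Prop where
  small : ∀ e, (s.1.get e).natAbs * (G.ed e).l < θ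
  off : ∀ e, e ∉ G.E → s.1.get e = 0
  rep : RepOk G.E rp s.2

/-- their price -/
def pm (θ wt cc : ℕ) (G : Gr) (s : So) : ℕ :=
  (wt + cc) * om G.U G.ed s.1.get + θ * cc * s.2.length + wt * rw G.ed s.2

/-- the flow received by `e` -/
def val (s : So) (e : ℕ) : ℤ := s.1.get e + rsum s.2 e

theorem om_set {U : Finset ℕ} (ed : ℕ → Ed) (own : Arr ℤ) {e : ℕ} (he : e ∈ U) (v : ℤ) :
    om U ed (own.set e v).get + (own.get e).natAbs * (ed e).l =
      om U ed own.get + v.natAbs * (ed e).l := by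
  unfold om
  rw [← add_sum_erase U _ he, ← add_sum_erase U _ he, Arr.get_set_self]
  have : ∑ x ∈ U.erase e, ((own.set e v).get x).natAbs * (ed x).l =
      ∑ x ∈ U.erase e, (own.get x).natAbs * (ed x).l :=
    sum_congr rfl fun x hx => by rw [Arr.get_set_ne _ (ne_of_mem_erase hx)]
  rw [this]; ring

variable {g : Gl} {θ rp wt cc D : ℕ} {G : Gr} {ed : Arr Ed}

theorem sp_push1 (hed : ed.get = G.ed) (hU : G.E ⊆ G.U) (h1 : ∀ e ∈ G.E, 1 ≤ (G.ed e).l)
    (hD : θ + D ≤ rp) (hX : rp ≤ g.X) {δ : ℤ} (hδ : δ.natAbs ≤ D) {x : ℕ × Bool} (hx : x.1 ∈ G.E)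
    {s : So} (h : PS θ rp G s) :
    Sp g (push1 θ ed δ x s) fun s' t => t = 0 ∧ PS θ rp G s' ∧
      (∀ e, val s' e = val s e + δ * if x.1 = e then sg x.2 else 0) ∧
      pm θ wt cc G s' ≤ pm θ wt cc G s + (wt + cc) * (δ.natAbs * (G.ed x.1).l) := by
  have hθ : 0 < θ := (Nat.zero_le _).trans_lt (h.small 0)
  set v : ℤ := s.1.get x.1 + if x.2 then δ else -δ with hv
  have hv1 : v.natAbs ≤ (s.1.get x.1).natAbs + δ.natAbs := by
    refine (Int.natAbs_add_le _ _).trans (Nat.add_le_add_left (le_of_eq ?_) _)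
    split_ifs <;> simp
  have hs := h.small x.1
  have hs1 : (s.1.get x.1).natAbs < θ := (Nat.le_mul_of_pos_right _ (h1 _ hx)).trans_lt hs
  have hv2 : v.natAbs * (G.ed x.1).l ≤
      (s.1.get x.1).natAbs * (G.ed x.1).l + δ.natAbs * (G.ed x.1).l := by
    rw [← add_mul]; exact Nat.mul_le_mul_right _ hv1
  have hv3 : v = s.1.get x.1 + δ * sg x.2 := by rw [hv, ite_sg, mul_comm]
  simp only [push1, sp_bind, sp_int, sp_pure, hed, ← hv]
  refine ⟨by omega, trivial, ?_⟩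
  split_ifs with hc
  · refine ⟨⟨fun e => ?_, fun e he => ?_, fun y hy => ?_⟩, fun e => ?_, ?_⟩
    · rw [Arr.get_set]; split_ifs
      · simpa using hθ
      · exact h.small e
    · rw [Arr.get_set]; split_ifs
      · rfl
      · exact h.off e he
    · rcases List.mem_cons.1 hy with rfl | hy
      · exact ⟨hx, by change v.natAbs ≤ rp; omega⟩
      · exact h.rep y hy
    · simp only [val, rsum_cons, Arr.get_set]
      by_cases e1 : x.1 = e
      · subst e1; simp only [if_true]; rw [hv3]; ring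
      · rw [if_neg (Ne.symm e1), if_neg e1, if_neg e1]; ring
    · have h2 := om_set G.ed s.1 (hU hx) 0
      simp only [Int.natAbs_zero, zero_mul, add_zero] at h2
      simp only [pm, List.length_cons, rw_cons]
      have h3 : cc * θ ≤ cc * (v.natAbs * (G.ed x.1).l) := Nat.mul_le_mul_left _ hc
      have h4 := Nat.mul_le_mul_left (wt + cc) hv2
      rw [← h2]
      nlinarith
  · refine ⟨⟨fun e => ?_, fun e he => ?_, h.rep⟩, fun e => ?_, ?_⟩
    · rw [Arr.get_set]; split_ifs with e1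
      · rw [e1]; omega
      · exact h.small e
    · rw [Arr.get_set_ne _ (fun e1 : e = x.1 => he (by rw [e1]; exact hx))]; exact h.off e he
    · simp only [val, Arr.get_set]
      by_cases e1 : x.1 = e
      · subst e1; simp only [if_true]; rw [hv3]; ring
      · rw [if_neg (Ne.symm e1), if_neg e1]; ring
    · have h2 := om_set G.ed s.1 (hU hx) v
      simp only [pm]
      have h3 : om G.U G.ed (s.1.set x.1 v).get ≤
          om G.U G.ed s.1.get + δ.natAbs * (G.ed x.1).l := by omega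
      have h4 := Nat.mul_le_mul_left (wt + cc) h3
      rw [mul_add] at h4; omega

theorem sp_pushW (hed : ed.get = G.ed) (hU : G.E ⊆ G.U) (h1 : ∀ e ∈ G.E, 1 ≤ (G.ed e).l)
    (hD : θ + D ≤ rp) (hX : rp ≤ g.X) {δ : ℤ} (hδ : δ.natAbs ≤ D) {w : Wk}
    (hw : ∀ x ∈ w, x.1 ∈ G.E) {s : So} (h : PS θ rp G s) :
    Sp g (foldL (push1 θ ed δ) w s) fun s' t => t ≤ w.length + 1 ∧ PS θ rp G s' ∧
      (∀ e, val s' e = val s e + δ * scnt w e) ∧
      pm θ wt cc G s' ≤ pm θ wt cc G s + (wt + cc) * (δ.natAbs * wl G.ed w) := by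
  refine (sp_foldL (fun l s' t => (∀ x ∈ l, x.1 ∈ G.E) ∧ t + l.length ≤ w.length ∧ PS θ rp G s' ∧
      (∀ e, val s' e + δ * scnt l e = val s e + δ * scnt w e) ∧
      pm θ wt cc G s' + (wt + cc) * (δ.natAbs * wl G.ed l) ≤
        pm θ wt cc G s + (wt + cc) * (δ.natAbs * wl G.ed w)) ?_ (t := 0)
      ⟨hw, by simp, h, fun _ => rfl, le_rfl⟩).mono ?_
  · rintro x l s1 t ⟨a1, a2, a3, a4, a5⟩
    refine (sp_push1 (wt := wt) (cc := cc) hed hU h1 hD hX hδ (a1 x (by simp)) a3).mono ?_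
    rintro s2 u ⟨rfl, b1, b2, b3⟩
    refine ⟨fun y hy => a1 y (by simp [hy]), by rw [List.length_cons] at a2; omega, b1,
      fun e => ?_, ?_⟩
    · rw [← a4 e, b2 e, scnt_cons]; ring
    · rw [wl_cons, mul_add, mul_add] at a5; omega
  · rintro s' t ⟨u, rfl, -, a2, a3, a4, a5⟩
    exact ⟨by simpa using a2, a3, fun e => by simpa using a4 e, by simpa using a5⟩

theorem sp_pushR (hed : ed.get = G.ed) (hU : G.E ⊆ G.U) (h1 : ∀ e ∈ G.E, 1 ≤ (G.ed e).l)
    (hD : θ + D ≤ rp) (hX : rp ≤ g.X) {K : ℕ} {F : Finset ℕ} {ed' : ℕ → Ed} {wk : Arr Wk}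
    (hF : ∀ p ∈ F, WOk K G (ed' p).l (wk.get p)) {r : Rep} (hr : RepOk F D r) {s : So}
    (h : PS θ rp G s) :
    Sp g (pushR θ ed wk r s) fun s' t => t ≤ r.length * (K + 2) + 1 ∧ PS θ rp G s' ∧
      (∀ e, val s' e = val s e + pf F wk.get (rsum r) e) ∧
      pm θ wt cc G s' ≤ pm θ wt cc G s + (wt + cc) * rw ed' r := by
  refine (sp_foldL (fun l s' t => RepOk F D l ∧ t + l.length * (K + 2) ≤ r.length * (K + 2) ∧
      PS θ rp G s' ∧ (∀ e, val s' e + pf F wk.get (rsum l) e = val s e + pf F wk.get (rsum r) e) ∧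
      pm θ wt cc G s' + (wt + cc) * rw ed' l ≤ pm θ wt cc G s + (wt + cc) * rw ed' r) ?_ (t := 0)
      ⟨hr, by simp, h, fun _ => rfl, le_rfl⟩).mono ?_
  · rintro x l s1 t ⟨a1, a2, a3, a4, a5⟩
    have hx := a1 x (by simp)
    have hw := hF _ hx.1
    refine (sp_pushW (wt := wt) (cc := cc) hed hU h1 hD hX hx.2 hw.1 a3).mono ?_
    rintro s2 u ⟨b0, b1, b2, b3⟩
    have hl : RepOk F D l := fun y hy => a1 y (by simp [hy])
    refine ⟨hl, ?_, b1, fun e => ?_, ?_⟩
    · have := hw.2.1; rw [List.length_cons, add_mul] at a2; omega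
    · rw [← a4 e, b2 e]
      unfold pf
      rw [sum_rsum (fun y hy => (a1 y hy).1), sum_rsum (fun y hy => (hl y hy).1)]
      simp only [List.map_cons, List.sum_cons]; ring
    · have h5 : (wt + cc) * (x.2.natAbs * wl G.ed (wk.get x.1)) ≤
          (wt + cc) * (x.2.natAbs * (ed' x.1).l) :=
        Nat.mul_le_mul_left _ (Nat.mul_le_mul_left _ hw.2.2)
      rw [rw_cons, mul_add] at a5; omega
  · rintro s' t ⟨u, rfl, -, a2, a3, a4, a5⟩
    exact ⟨by simpa using a2, a3, fun e => by simpa [pf] using a4 e, by simpa using a5⟩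

theorem sp_lenG (hed : ed.get = G.ed) {c : Bd} (hG : G.Ok c) {K : ℕ} (hl : K * c.lb ≤ g.X)
    (hg : K * c.gb ≤ g.X) {w : Wk} (hw : ∀ x ∈ w, x.1 ∈ G.E) (hK : w.length ≤ K) :
    Sp g (lenG ed w) fun a t => t ≤ K + 1 ∧ a = (wl G.ed w, wg G.ed w) := by
  refine (sp_foldL (fun l a t => (∀ x ∈ l, x.1 ∈ G.E) ∧ t + l.length = w.length ∧
      a.1 ≤ t * c.lb ∧ a.2.natAbs ≤ t * c.gb ∧ a.1 + wl G.ed l = wl G.ed w ∧
      a.2 + wg G.ed l = wg G.ed w) ?_ (t := 0) (s := (0, 0))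
      ⟨hw, by simp, by simp, by simp, by simp, by simp⟩).mono ?_
  · rintro x l a t ⟨a1, a2, a3, a4, a5, a6⟩
    have hx := hG.2.2 _ (a1 x (by simp))
    rw [List.length_cons] at a2
    have e1 : (t + 1) * c.lb ≤ K * c.lb := Nat.mul_le_mul_right _ (by omega)
    have e2 : (t + 1) * c.gb ≤ K * c.gb := Nat.mul_le_mul_right _ (by omega)
    have e3 : (a.2 + if x.2 then (G.ed x.1).g else -(G.ed x.1).g).natAbs ≤ (t + 1) * c.gb := by
      refine (Int.natAbs_add_le _ _).trans ?_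
      rw [ite_sg, Int.natAbs_mul, natAbs_sg, one_mul, add_mul, one_mul]
      exact Nat.add_le_add a4 hx.2.2.2.2.2
    have e4 := hx.2.2.2.2.1
    rw [add_mul, one_mul] at e1
    simp only [sp_bind, sp_nat, sp_int, sp_pure, hed, add_zero]
    refine ⟨by omega, e3.trans (e2.trans hg), fun y hy => a1 y (by simp [hy]), by omega,
      by rw [add_mul, one_mul]; omega, e3, by rw [wl_cons] at a5; omega, ?_⟩
    rw [← a6, ite_sg]; simp only [wg, wsum_cons]; ring
  · rintro a t ⟨u, rfl, -, a2, -, -, a5, a6⟩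
    refine ⟨by simp at a2; omega, Prod.ext (by simpa using a5) (by simpa [wg] using a6)⟩

theorem sp_cyc (hed : ed.get = G.ed) {c : Bd} (hG : G.Ok c) {K ψ κ : ℕ} (hl : K * c.lb ≤ g.X)
    (hg : K * c.gb ≤ g.X) (hD : θ + κ ≤ rp) (hX : rp ≤ g.X) {w : Wk} (hw : Cyc ψ K G w) {s : So}
    (h : PS θ rp G s) :
    Sp g (cyc θ κ ed w s) fun s' t => t ≤ 2 * K + 2 ∧ PS θ rp G s' ∧
      (∀ e, val s' e = val s e + amt κ G.ed w * scnt w e) ∧
      pm θ wt cc G s' ≤ pm θ wt cc G s + (wt + cc) * κ := by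
  refine (sp_lenG hed hG hl hg hw.1 hw.2.1).bind ?_
  rintro a t ⟨ht, rfl⟩
  have hδ : (amt κ G.ed w).natAbs ≤ κ := by rw [natAbs_amt]; exact Nat.div_le_self _ _
  refine (sp_pushW (wt := wt) (cc := cc) hed hG.1 (fun e he => (hG.2.2 e he).2.2.2.1) hD hX hδ
    hw.1 h).mono ?_
  rintro s' u ⟨b0, b1, b2, b3⟩
  refine ⟨by have := hw.2.1; omega, b1, b2, b3.trans (Nat.add_le_add_left ?_ _)⟩
  rw [natAbs_amt]
  exact Nat.mul_le_mul_left _ (Nat.div_mul_le_self _ _)

end Crest.Agent.N325.Tw
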