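import Crest.Agent.N325.Tw.Lvl

/-! # Row 325 (helper64): `lvl_spec` -/

set_option autoImplicit false
open Finset

namespace Crest.Agent.N325.Tw

variable {S P T : Type} {g : Gl} {θ κ Z : ℕ} {low : Cmd × T → R (T × Rep × Bool)}
  {σ : Stage S P} {p : P} {sc : SC} {I : S → Gr → Gr → (ℕ → Wk) → ℕ → Prop} {Φ rc : S → ℕ}
  {k' k : TC} {Sh' : T → Prop} {I' : T → Gr → (ℕ → ℤ) → Prop} {Ψ' : T → ℕ}

/-- the common end of the three ways of making a step -/
theorem step_end {v v' : Lv S P} {t t' : T} {G H H' : Gr} {f fl fl' c : ℕ → ℤ} {r : Rep} {u A : ℕ}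
    (hT : Tab v G) (hf : ∀ e ∈ G.E, f e = v.own.get e + pf H.E v.wk.get fl e)
    (c1 : Core p sc I rc I' v' t' v'.cnt G H' fl') (hs : PS θ k.rp G (v'.own, r))
    (hv : ∀ e, val (v'.own, r) e + pf H'.E v'.wk.get fl' e =
      v.own.get e + pf H.E v.wk.get fl e + c e)
    (hu : u + Pot θ Z k' Φ rc Ψ' v'.st v'.cnt t' + pm θ k.wt k.cc G (v'.own, r) ≤
      pm θ k.wt k.cc G (v.own, []) + Pot θ Z k' Φ rc Ψ' v.st v.cnt t + A) :
    ∃ f', LI θ p sc I rc I' (v', t') G f' ∧ RepOk G.E k.rp r ∧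
      (∀ e ∈ G.E, f' e + rsum r e = f e + c e) ∧
      u + LΨ θ Z k' k Φ rc Ψ' (v', t') + θ * k.cc * r.length + k.wt * rw G.ed r ≤
        LΨ θ Z k' k Φ rc Ψ' (v, t) + A := by
  refine ⟨fun e => v'.own.get e + pf H'.E v'.wk.get fl' e,
    LI.core.2 ⟨H', fl', c1, hs.nil 0, fun _ _ => rfl⟩, hs.rep, fun e he => ?_, ?_⟩
  · rw [hf e he, ← hv e, val]; ring
  · have e1 := LΨ_eq (θ := θ) (Z := Z) (k' := k') (k := k) (Φ := Φ) (rc := rc) (Ψ' := Ψ') (t := t')
      (B := G) c1.tab rfl rfl r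
    have e2 := LΨ_eq (θ := θ) (Z := Z) (k' := k') (k := k) (Φ := Φ) (rc := rc) (Ψ' := Ψ') (t := t)
      (B := G) hT rfl rfl []
    simp only [List.length_nil, rw_nil, mul_zero, add_zero] at e2
    omega

theorem sp_stepL (St : StageSpec g σ p sc I Φ rc) (L : TowerSpec g θ κ low k' Sh' I' Ψ')
    (F : Fit g.X θ κ sc Z k' k) {v : Lv S P} {t : T} {G : Gr} {f : ℕ → ℤ}
    (h : LI θ p sc I rc I' (v, t) G f) (hG : G.Ok sc.c) :
    Sp g (stepL low θ κ σ v t) fun r u => ∃ f' c, LI θ p sc I rc I' r.1 G f' ∧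
      RepOk G.E k.rp r.2.1 ∧ (∀ e ∈ G.E, f' e + rsum r.2.1 e = f e + c e) ∧
      (if r.2.2 then Good k.ψ κ G c else Flat G k.th ∧ ∀ e, c e = 0) ∧
      θ * u + LΨ θ Z k' k Φ rc Ψ' r.1 + θ * k.cc * r.2.1.length + k.wt * rw G.ed r.2.1 ≤
        LΨ θ Z k' k Φ rc Ψ' (v, t) + θ * k.AS := by
  obtain ⟨H, fl, c, hs, hf⟩ := LI.core.1 h
  dsimp only at c hs hf
  have C : Ctx g θ k.rp k' k.wt k.cc sc.K G v.ed := F.ctx c.tab.ed hG.1 hG.one
  have R0 := St.rel c.st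
  have hA := F.AS
  unfold stepL
  refine (sp_down C R0.wok (hs.nil k.rp) (Y := Ψ') (A := Ψ' t + θ * k'.AS)
    (Q := fun r => ∃ f' c, I' r.1 H f' ∧ (∀ e ∈ H.E, f' e + rsum r.2.1 e = fl e + c e) ∧
      (if r.2.2 then Good k'.ψ κ H c else Flat H k'.th ∧ ∀ e, c e = 0))
    ((L.step o0 c.low (F.c' ▸ c.ok)).mono fun r u ⟨f', c, a1, a2, a3, a4, a5⟩ =>
      ⟨⟨f', c, a1, a3, a4⟩, a2, a5⟩)).bind ?_
  rintro d t1 ⟨r, ⟨f1, c0, a1, a2, a3⟩, a4, a5, a6⟩
  dsimp only at a1 a2 a3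
  have hv : ∀ e, val d.1 e + pf H.E v.wk.get f1 e =
      v.own.get e + pf H.E v.wk.get fl e + pf H.E v.wk.get c0 e := fun e => by
    rw [a5 e, val_nil, add_assoc, add_assoc]
    congr 1
    simp only [pf, ← sum_add_distrib]
    exact sum_congr rfl fun q hq => by rw [← add_mul, ← add_mul, add_comm, a2 q hq]
  rw [sp_ite]
  refine ⟨fun hd => ?_, fun hd => ?_⟩
  · rw [if_pos hd] at a3
    obtain ⟨f', b1, b2, b3, b4⟩ := step_end (k := k) (k' := k') (Z := Z) (Φ := Φ) (Ψ' := Ψ') (t := t)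
      (v' := { v with own := d.1.1 }) (u := θ * (t1 + 0)) (A := θ * k.AS) c.tab hf
      ⟨c.tab.of_eq rfl rfl rfl, c.p, c.lim, c.cnt, c.st, a1, c.ok, c.card⟩ a4 hv (by
        change _ + Pot θ Z k' Φ rc Ψ' v.st v.cnt d.2.1 + pm θ k.wt k.cc G d.1 ≤ _
        unfold Pot
        simp only [mul_add, add_zero, mul_comm θ (2 * _), mul_assoc 2, mul_comm k'.AS θ] at hA ⊢
        omega)
    exact ⟨f', _, b1, b2, b3, by
      change (if true = true then _ else _); rw [if_pos rfl, F.ψ, ← F.ψ']; exact R0.good a3, b4⟩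
  rw [if_neg hd] at a3
  have h0 : ∀ e, pf H.E v.wk.get c0 e = 0 := fun e => by simp [pf, a3.2]
  refine (St.probe c.st c.cnt hG (F.th' ▸ a3.1)).bind ?_
  rintro ⟨s1, l, ow⟩ t2 ⟨b1, ⟨b2, b3, b4, b5, b6⟩ | ⟨b2, b3, b4, b5, b6, b7⟩⟩
  · dsimp only at b1 b2 b3 b4 b5 b6
    subst b2
    have e1 : rc s1 * (k'.AU + 3) ≤ rc v.st * (k'.AU + 3) := Nat.mul_le_mul_right _ b4
    have e2 := Nat.mul_le_mul_left θ e1
    have e3 := Nat.mul_le_mul_left θ b1
    have c1 : ∀ own, Core p sc I rc I' { v with st := s1, own := own } d.2.1 v.cnt G H f1 :=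
      fun own => ⟨c.tab.of_eq rfl rfl rfl, c.p, c.lim, c.cnt, b3, a1, c.ok,
        by have := c.card; change _ + rc s1 ≤ _; omega⟩
    cases ow with
    | none =>
      obtain ⟨f', g1, g2, g3, g4⟩ := step_end (k := k) (k' := k') (Z := Z) (Φ := Φ) (Ψ' := Ψ')
        (t := t) (v' := { v with st := s1, own := d.1.1 }) (u := θ * (t1 + (t2 + 0)))
        (A := θ * k.AS) c.tab hf (c1 _) a4 hv (by
          change _ + Pot θ Z k' Φ rc Ψ' s1 v.cnt d.2.1 + pm θ k.wt k.cc G d.1 ≤ _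
          unfold Pot
          simp only [mul_add, add_zero, mul_comm θ (2 * _), mul_assoc 2, mul_comm k'.AS θ]
            at hA e2 e3 ⊢
          omega)
      exact ⟨f', _, g1, g2, g3, by
        change (if false = true then _ else _)
        rw [if_neg Bool.false_ne_true, F.th]; exact ⟨b6 rfl, h0⟩, g4⟩
    | some w =>
      have hw := b5 w rfl
      refine (sp_cyc (wt := k.wt) (cc := k.cc) c.tab.ed hG F.lX F.gX F.rpκ F.rpX hw a4).bind ?_
      rintro s2 t3 ⟨d1, d2, d3, d4⟩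
      have e4 := Nat.mul_le_mul_left θ d1
      obtain ⟨f', g1, g2, g3, g4⟩ := step_end (k := k) (k' := k') (Z := Z) (Φ := Φ) (Ψ' := Ψ')
        (t := t) (v' := { v with st := s1, own := s2.1 }) (u := θ * (t1 + (t2 + (t3 + 0))))
        (c := fun e => amt κ G.ed w * scnt w e) (A := θ * k.AS) c.tab hf (c1 _) d2
        (fun e => by
          change val s2 e + pf H.E v.wk.get f1 e = _
          rw [d3 e, add_right_comm, hv e, h0 e, add_zero]) (by
          change _ + Pot θ Z k' Φ rc Ψ' s1 v.cnt d.2.1 + pm θ k.wt k.cc G s2 ≤ _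
          unfold Pot
          simp only [mul_add, add_zero, mul_comm θ (2 * _), mul_assoc 2, mul_comm k'.AS θ]
            at hA e2 e3 e4 ⊢
          omega)
      refine ⟨f', _, g1, g2, g3, ?_, g4⟩
      change (if true = true then _ else _)
      rw [if_pos rfl, F.ψ]
      exact hw.good hG.one ((wl_le fun x hx => (hG.2.2 _ (hw.1 x hx)).2.2.2.2.1).trans
        ((Nat.mul_le_mul_right _ hw.2.1).trans F.lκ))
  · dsimp only at b1 b2 b3 b4 b5 b6 b7
    subst b3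
    have hl : ¬l.isEmpty = true := by simpa using b2
    change Sp g (if l.isEmpty then _ else _) _
    rw [if_neg hl]
    have hc := c.card
    refine (sp_again (v := { v with st := s1 }) (fl := f1) St L F (c.tab.of_eq rfl rfl rfl) c.p c.lim
      c.cnt hG ⟨a1, a4, R0.wok, F.c' ▸ c.ok⟩ b4 b5
      (by change _ + rc s1 ≤ sc.RB + sc.RU * (v.cnt + 1); rw [mul_add, mul_one]; omega) b7).mono ?_
    rintro x t3 ⟨H3, f3, c3, d0, d1, d2, d3, d4, d5⟩
    have e1 : (l.length + rc s1) * (k'.AU + 3) ≤ (rc v.st + sc.RU) * (k'.AU + 3) :=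
      Nat.mul_le_mul_right _ b6
    rw [add_mul, add_mul] at e1
    have e2 := Nat.mul_le_mul_left θ e1
    have e3 := Nat.mul_le_mul_left θ b1
    obtain ⟨f', g1, g2, g3, g4⟩ := step_end (k := k) (k' := k') (Z := Z) (Φ := Φ) (Ψ' := Ψ')
      (t := t) (u := θ * (t1 + (t2 + t3))) (c := c3) (A := θ * k.AS) c.tab hf d2 d3
      (fun e => by
        rw [d4 e]; change val d.1 e + pf H.E v.wk.get f1 e + _ = _
        rw [hv e, h0 e, add_zero]) (by
        change _ ≤ _ + Pot θ Z k' Φ rc Ψ' s1 (v.cnt + 1) d.2.1 + _ at d5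
        unfold Pot at d5 ⊢
        rw [add_mul v.cnt 1, one_mul] at d5
        generalize k'.AU + 3 = a at *
        simp only [mul_add, mul_comm θ (2 * _), mul_assoc 2, mul_comm k'.AS θ] at hA e2 e3 d5 ⊢
        linarith [Nat.zero_le ((k.wt + k.cc) * κ), Nat.zero_le (sc.K * θ), Nat.zero_le θ])
    exact ⟨f', c3, g1, g2, g3, by rw [if_pos d0]; exact d1, g4⟩

theorem sp_dumpL (St : StageSpec g σ p sc I Φ rc) (L : TowerSpec g θ κ low k' Sh' I' Ψ')
    (F : Fit g.X θ κ sc Z k' k) {v : Lv S P} {t : T} {G : Gr} {f : ℕ → ℤ}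
    (h : LI θ p sc I rc I' (v, t) G f) (hG : G.Ok sc.c) :
    Sp g (dumpL low θ v t) fun r u => RepOk G.E k.rp r.2.1 ∧ (∀ e ∈ G.E, rsum r.2.1 e = f e) ∧
      θ * u + θ * k.cc * r.2.1.length + k.wt * rw G.ed r.2.1 ≤
        LΨ θ Z k' k Φ rc Ψ' (v, t) + θ * k.AD := by
  obtain ⟨H, fl, c, hs, hf⟩ := LI.core.1 h
  dsimp only at c hs hf
  have C : Ctx g θ k.rp k' k.wt k.cc sc.K G v.ed := F.ctx c.tab.ed hG.1 hG.one
  unfold dumpL
  refine (sp_down C (St.rel c.st).wok (hs.nil k.rp) (Y := fun _ => 0) (A := Ψ' t + θ * k'.AD)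
    (Q := fun r => ∀ e ∈ H.E, rsum r.2.1 e = fl e)
    ((L.dump o0 c.low (F.c' ▸ c.ok)).mono fun r u ⟨a1, a2, a3⟩ => ⟨a2, a1, by omega⟩)).bind ?_
  rintro d u ⟨r, a1, a2, a3, a4⟩
  refine (sp_repAll (wt := k.wt) (cc := k.cc) c.tab hG.1 hG.one
    ((Nat.le_add_right _ _).trans F.rp) a2).bind ?_
  rintro r' u' ⟨b1, b2, b3, b4⟩
  refine ⟨b2, fun e he => ?_, ?_⟩
  · change rsum r' e = _
    rw [b3 e he, a3 e, val_nil, hf e he]
    congr 1
    exact sum_congr rfl fun q hq => by rw [a1 q hq]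
  · have e2 := LΨ_eq (θ := θ) (Z := Z) (k' := k') (k := k) (Φ := Φ) (rc := rc) (Ψ' := Ψ') (t := t)
      (B := G) c.tab rfl rfl []
    simp only [List.length_nil, rw_nil, mul_zero, add_zero] at e2
    have e3 : u' + k.cc * G.U.card + k'.AD + 2 ≤ k.AD := by
      have := F.AD
      have := Nat.mul_le_mul_right (k.cc + 1) hG.2.1
      rw [mul_add, mul_one, mul_comm] at this; omega
    have e4 := Nat.mul_le_mul_left θ e3
    change θ * (u + (u' + 0)) + θ * k.cc * r'.length + k.wt * rw G.ed r' ≤ _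
    unfold Pot at e2
    simp only [mul_add, add_zero, ← mul_assoc] at e2 e4 ⊢
    omega

/-- **one more level** -/
theorem lvl_spec (St : StageSpec g σ p sc I Φ rc) (L : TowerSpec g θ κ low k' Sh' I' Ψ')
    (F : Fit g.X θ κ sc Z k' k) :
    TowerSpec g θ κ (lvl low θ κ σ) k (fun x => x.1.p = p ∧ x.1.lim = sc.lim ∧ Sh' x.2)
      (LI θ p sc I rc I') (LΨ θ Z k' k Φ rc Ψ') where
  sh := fun ⟨_, _, _, a2, a3, _, _, a6, _⟩ => ⟨a2, a3, L.sh a6⟩
  stale := fun {s G f} h e he => by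
    obtain ⟨H, fl, c, hs, hf⟩ := LI.core.1 h
    have e1 := (St.rel c.st).stale (L.stale c.low) he
    have e2 := hs.small e
    have e3 := F.er
    rw [hf e he]
    refine (Nat.mul_le_mul_right _ (Int.natAbs_add_le _ _)).trans ?_
    rw [add_mul]; change (s.1.own.get e).natAbs * _ < θ at e2; omega
  upd := fun o h ho hG hG' => sp_updL St L F o h ho (F.c ▸ hG) (F.c ▸ hG')
  step := fun _ h hG => sp_stepL St L F h (F.c ▸ hG)
  dump := fun _ h hG => sp_dumpL St L F h (F.c ▸ hG)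
  reset := fun {s} _ h => by
    change Sp g (resetL low θ σ s.1 s.2) _
    have hs : PS θ k.rp Gr.emp (Arr.cst 0, []) :=
      ⟨fun _ => by simpa using F.θ1, fun _ _ => rfl, fun _ hx => nomatch hx⟩
    refine (sp_fresh St L F (Tab.clear s.1) h.1 h.2.1 (Gr.emp_ok _) subset_rfl rfl
      (F.ctx rfl subset_rfl fun _ he => absurd he (notMem_empty _)) h.2.2 hs).bind ?_
    rintro r u ⟨H, fl, c, a1, -, a3⟩
    have e0 : r.2 = [] := List.eq_nil_iff_forall_not_mem.2 fun x hx =>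
      absurd (a1.rep x hx).1 (notMem_empty _)
    refine ⟨LI.core.2 ⟨H, fl, c, a1.nil 0, fun _ he => absurd he (notMem_empty _)⟩, e0, ?_⟩
    have e1 := LΨ_eq (θ := θ) (Z := Z) (k' := k') (k := k) (Φ := Φ) (rc := rc) (Ψ' := Ψ')
      (t := r.1.2) (B := Gr.emp) c.tab rfl rfl r.2
    have e2 : pm θ k.wt k.cc Gr.emp (Arr.cst 0, []) = 0 := by simp [pm, om, Gr.emp]
    change θ * (u + 0) + LΨ θ Z k' k Φ rc Ψ' (r.1.1, r.1.2) ≤ _
    rw [add_zero]; omega

end Crest.Agent.N325.Tw
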